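import Crest.Agent.N222.A.SmJ
import Crest.Agent.N222.F.Graph
import Crest.Agent.N222.C.Hom
import Crest.Agent.N222.C.Cnt
import Crest.Agent.N222.C.Eval
import Crest.Agent.N222.C.CovF
import Crest.Agent.N222.C.SDefs
import Crest.Agent.R263.SCQ_734
import Crest.Agent.N222.T.Cov
import Crest.Agent.N222.C.Alg
import Crest.Agent.R251.Sm82C
import Crest.Agent.N222.C.Simp

-- ▼ part N222/A/Next
section

/-! # Row 222, part A: the next state (helper72) -/

set_option autoImplicit false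
set_option linter.dupNamespace false
open Filter Set Topology Function
open scoped ContDiff

noncomputable section

namespace Crest.Agent.N222.A

/-- transport of the step along a map which intertwines the derivations -/
theorem stepS_D_of {X Y ι : Type} [Fintype ι] {S : Pre (X → ℝ) ι} {S' : Pre (Y → ℝ) ι}
    {v f : X → ℝ} {v' f' : Y → ℝ} {x : X} {y : Y} (hv : ∀ c, S.D c v x = S'.D c v' y)
    (hf : ∀ c, S.D c f x = S'.D c f' y) (c : Option ι) :
    (stepS S v).D c f x = (stepS S' v').D c f' y := by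
  have h1 : vv S v x = vv S' v' y := by simp [vv, Pre.gam, hv]
  cases c <;> simp [stepS, Pre.graph, Pre.nu, Pre.dir, Pre.X, hv, hf, h1]

theorem next (hG : GenStmt) : NextStmt := by
  intro n B st Q σ a v u0 hQ hσ ha hv v0 hu
  refine ⟨{
    ι := Option st.ι
    S := fun s => stepS (st.S s) v
    b := fun s => stepb (st.S s) (st.b s) Q σ a v u0
    vs := v :: st.vs
    smD := fun c f hf => smJ_stepD st.smD (SmJ.of_smA hv) c f hf
    smb := fun c => smJ_stepb st.smD (SmJ.of_smA hv) st.smb (SmJ.of_smA hQ) (SmJ.of_smA hσ) hu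
      (fun _ _ p => v0 p) (SmJ.of_smA ha) c
    imm := fun s hs => ?_
    smx := fun c => ?_
    j := fun c => some (st.j c)
    j_inj := (Option.some_injective _).comp st.j_inj
    x_j := fun g c x ξ hξ => st.x_j g c x ξ hξ
    fib := fun g ξ hξ => ?_
    vs_sm := fun w hw => ?_
    vs_le := fun φ hφ => ?_ }, rfl, fun s z => ⟨fun _ _ => rfl, rfl⟩⟩
  · obtain ⟨M, h1, h2, h3⟩ := st.imm s hs
    have sm : ∀ {f : B.Z → ℝ}, SmA B.ch f → M.Sm f := fun hf => by rw [Imm.Sm, h1]; exact hf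
    borelize B.Z
    refine ⟨M.graph v (sm hv), h1, ?_, ?_⟩
    · rw [Imm.graph_pre, ← h2]; rfl
    · have := (hG _ _ _ M (st.b s) Q σ a v u0 (fun c => sm ((st.smb c).slice (mem_univ s)))
        (h2 ▸ h3) (sm hQ) (sm hσ) (sm ha) (sm hv) v0 hu).1
      rwa [h2] at this
  · cases c with
    | none => exact hv
    | some c => exact st.smx c
  · obtain ⟨N', h1, h2, h3⟩ := st.fib g ξ hξ
    have sm : N'.Sm fun y => v (B.t g y ξ) := by
      rw [Imm.Sm, h1]; exact (B.sm_res g v hv).slice hξ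
    borelize B.T
    refine ⟨N'.graph _ sm, h1, fun c x => ?_, fun f hf c x => ?_⟩
    · cases c with
      | none => rfl
      | some c => exact h2 c x
    · rw [Imm.graph_pre]
      exact stepS_D_of (fun c => h3 v hv c x) (fun c => h3 f hf c x) c
  · rcases List.mem_cons.1 hw with rfl | hw
    · exact hv
    · exact st.vs_sm w hw
  · rw [List.map_cons, List.sum_cons, Fintype.sum_option]
    exact add_le_add le_rfl (st.vs_le φ hφ)

end Crest.Agent.N222.A

end
end

-- ▼ part N222/C/Smooth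
section

/-!
# Row 222, part C: smoothing a continuous field in the parameter

`G.YY` is a manifold (atlas `G.chart g v`, all transition maps are the identity); use
`Continuous.exists_contMDiff_approx` on the open subset `D`, then `exists_eqv` on the free `Γ`-set `T`
(with values in `G.YY → E`, `arrowAction`).
-/

set_option autoImplicit false

open Set Filter Topology
open scoped Manifold ContDiff

noncomputable section

namespace Crest.Agent.N222.C

namespace Gl

variable {k : ℕ} {Γ V T E : Type} [Group Γ] [MulAction Γ V] [MulAction Γ T] [Countable Γ]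
  [NormedAddCommGroup E] [NormedSpace ℝ E] (G : Gl Γ V k)

/-- the atlas of the sections -/
@[reducible] def chs : ChartedSpace (KK k → ℝ) G.YY where
  atlas := range fun c : Finset (JJ k) × V => G.chart c.1 c.2
  chartAt p := G.chart (neg p.1.2) p.1.1
  mem_chart_source p := G.in_self p
  chart_mem_atlas _ := ⟨(_, _), rfl⟩

omit [Countable Γ] in
theorem isManifold_chs : letI := G.chs; IsManifold 𝓘(ℝ, KK k → ℝ) ∞ G.YY := by
  let _ := G.chs
  refine isManifold_of_contDiffOn _ _ _ ?_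
  rintro _ _ ⟨c, rfl⟩ ⟨c', rfl⟩
  exact contDiffOn_id.congr fun η hη => (G.chart c.1 c.2).right_inv hη.1.1

theorem exists_smooth_slice {D : Set G.YY} (hD : IsOpen D) {f : G.YY → E} (hf : ContinuousOn f D)
    {ε : ℝ} (hε : 0 < ε) : ∃ f' : G.YY → E,
      (∀ g v, ContDiffOn ℝ 2 (fun ξ => f' (G.sec g v ξ)) {ξ | ξ ∈ Ug g ∧ G.sec g v ξ ∈ D}) ∧
      ∀ p ∈ D, ‖f' p - f p‖ < ε := by
  classical
  let _ := G.chs
  have := G.isManifold_chs
  have := G.secondCountable
  let U : TopologicalSpace.Opens G.YY := ⟨D, hD⟩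
  have : LocallyCompactSpace U := ChartedSpace.locallyCompactSpace (KK k → ℝ) U
  obtain ⟨F, hF, -⟩ := Continuous.exists_contMDiff_approx 𝓘(ℝ, KK k → ℝ) (M := U)
    (f := fun p => f p) (ε := fun _ => ε) 2 (continuousOn_iff_continuous_domRestrict.1 hf)
    continuous_const fun _ => hε
  have e : ∀ p : U, (if h : p.1 ∈ D then F ⟨p.1, h⟩ else 0) = F p := fun p => dif_pos p.2
  refine ⟨fun p => if h : p ∈ D then F ⟨p, h⟩ else 0, fun g v ξ hξ => ?_, fun p hp => ?_⟩
  · have h1 : ContMDiffAt 𝓘(ℝ, KK k → ℝ) 𝓘(ℝ, E) 2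
        (fun p : G.YY => if h : p ∈ D then F ⟨p, h⟩ else 0) (G.sec g v ξ) := by
      refine (contMDiffAt_subtype_iff (U := U) (x := ⟨_, hξ.2⟩)).1 ?_
      simp only [e]
      exact F.contMDiff _
    have h2 : ContMDiffAt 𝓘(ℝ, KK k → ℝ) 𝓘(ℝ, KK k → ℝ) ∞ (G.chart g v).symm ξ :=
      (contMDiffOn_symm_of_mem_maximalAtlas (e := G.chart g v) (IsManifold.subset_maximalAtlas
        (mem_range_self (f := fun c : Finset (JJ k) × V => G.chart c.1 c.2) (g, v)))).contMDiffAt
        ((isOpen_Ug g).mem_nhds hξ.1)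
    have h3 : ((2 : ℕ∞) : ℕ∞ω) ≤ ∞ := by exact_mod_cast le_top
    exact (h1.comp ξ (h2.of_le h3)).contDiffAt.contDiffWithinAt
  · simp only [dif_pos hp, ← dist_eq_norm]
    exact hF ⟨p, hp⟩

theorem exists_fld [TopologicalSpace T] (hfree : ∀ (g : Γ) (x : T), g • x = x → g = 1)
    {Ω : Set (T × G.YY)} (hΩ : IsOpen Ω) (hi : Inv Γ Ω) {b : T × G.YY → E}
    (hb : ∀ (g : Γ), ∀ z ∈ Ω, b (g • z) = b z) (hc : ContinuousOn b Ω) {ε : ℝ} (hε : 0 < ε) :
    ∃ b' : T × G.YY → E, G.Fld Ω b' ∧ ∀ z ∈ Ω, ‖b' z - b z‖ < ε := by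
  let _ : MulAction Γ (G.YY → E) := arrowAction
  have hm : ∀ (γ : Γ) x p, (γ • x, p) ∈ Ω → (x, γ⁻¹ • p) ∈ Ω := fun γ x p h => by
    simpa using hi γ⁻¹ _ h
  have key : ∀ (γ : Γ) x (F : G.YY → E), ((∀ g v, ContDiffOn ℝ 2 (fun ξ => F (G.sec g v ξ))
      {ξ | ξ ∈ Ug g ∧ (x, G.sec g v ξ) ∈ Ω}) ∧ ∀ p, (x, p) ∈ Ω → ‖F p - b (x, p)‖ < ε) →
      (∀ g v, ContDiffOn ℝ 2 (fun ξ => (γ • F) (G.sec g v ξ))
        {ξ | ξ ∈ Ug g ∧ (γ • x, G.sec g v ξ) ∈ Ω}) ∧
      ∀ p, (γ • x, p) ∈ Ω → ‖(γ • F) p - b (γ • x, p)‖ < ε := by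
    refine fun γ x F h => ⟨fun g v => ?_, fun p hp => ?_⟩
    · refine ((h.1 g (γ⁻¹ • v)).mono fun ξ hξ => ⟨hξ.1, ?_⟩).congr fun ξ _ => ?_
      · rw [sec_smul]; exact hm γ x _ hξ.2
      · rw [sec_smul]; rfl
    · have h1 := hb γ _ (hm γ x p hp)
      have h2 : γ • (x, γ⁻¹ • p) = (γ • x, p) := by simp
      rw [h2] at h1
      rw [h1]
      exact h.2 _ (hm γ x p hp)
  obtain ⟨F, hF, hR⟩ := exists_eqv (N := G.YY → E) hfree _ key
    fun x => G.exists_smooth_slice (D := {p | (x, p) ∈ Ω}) (f := fun p => b (x, p))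
      (hΩ.preimage (Continuous.prodMk_right x))
      (hc.comp (Continuous.prodMk_right x).continuousOn fun _ h => h) hε
  refine ⟨fun z => F z.1 z.2, ⟨fun γ z _ => ?_, fun x => (hR x).1⟩, fun z hz => (hR z.1).2 _ hz⟩
  change F (γ • z.1) (γ • z.2) = _
  rw [hF]
  change F z.1 (γ⁻¹ • γ • z.2) = _
  rw [inv_smul_smul]

end Gl

end Crest.Agent.N222.C
end
end

-- ▼ part N222/C/Core
section

/-!
# Row 222, part C: essentiality and the assembly `core : CoreStmt`
-/

set_option autoImplicit false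

open Set Filter Topology

noncomputable section

namespace Crest.Agent.N222.C

variable {Γ T L : Type} [Group Γ] [MulAction Γ T] [MulAction Γ L] [TopologicalSpace T] {n k : ℕ}

/-- topological hypotheses on the data -/
structure Dat.Top (d : Dat Γ T L (n + 1) k) (F : L → Set T) (yl : T → L) : Prop where
  sub : d.Sub F
  cl : ∀ y, IsClosed (F y)
  op : ∀ y, IsOpen (d.O y)
  lf : ∀ N, IsCompact N → {y | (d.O y ∩ N).Nonempty}.Finite
  eqv : ∀ (g : Γ) x, yl (g • x) = g • yl x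
  mem : ∀ x, x ∈ F (yl x)
  nle : ¬ LE d.χ (fun x : Fin (n + 1 + 1) → T => alt d.α fun i => yl (x i))

/-- **essentiality**: `ε = m / 2` with `m ≤ min 1 (inf ‖b‖)`, `b'` an `m / 4` smoothing of `b`;
`II b' = 0` near the diagonal, `II b' - II Hv = cob JH`, `II Hv = C · alt α ∘ yl`. -/
theorem Dat.Top.ess [T2Space T] [LocallyCompactSpace T] [ContinuousConstSMul Γ T] [Countable Γ]
    {d : Dat Γ T L (n + 1) k} {F : L → Set T} {yl : T → L} (h : d.Top F yl)
    (hfree : ∀ (g : Γ) (x : T), g • x = x → g = 1) (hp : Prp Γ T)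
    {Q : Set (T × d.gl.YY)} (hQ : IsCompact Q) (hQK : d.KC F ⊆ sat Γ Q)
    {Ω : Set (T × d.gl.YY)} (hΩ : IsOpen Ω) (hi : Inv Γ Ω) (hQΩ : Q ⊆ Ω) (hZ : Ω ⊆ d.ZZ)
    {b : T × d.gl.YY → TT (n + 1) k → ℝ} (hb : ∀ (g : Γ), ∀ z ∈ Ω, b (g • z) = b z)
    (hc : ContinuousOn b Ω) {Q' : Set (T × d.gl.YY)} (hQ' : IsCompact Q') (hQ'Ω : Q' ⊆ Ω)
    (hG : ∀ z ∈ Ω, z ∉ sat Γ Q' → ∃ t, Prob F z.1 t ∧ b z = d.GG t z.2) : ∃ z ∈ Ω, b z = 0 := by
  classical
  by_contra hne
  push Not at hne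
  have hQQ := hQ.union hQ'
  have hQQΩ : Q ∪ Q' ⊆ Ω := union_subset hQΩ hQ'Ω
  have hAΩ : sat Γ (Q ∪ Q') ⊆ Ω := fun z ⟨g, hg⟩ => inv_smul_smul g z ▸ hi g⁻¹ _ (hQQΩ hg)
  have hKA : d.KC F ⊆ sat Γ (Q ∪ Q') := fun z hz => (hQK hz).imp fun g hg => Or.inl hg
  obtain ⟨m₀, hm₀, hm₀'⟩ := hQQ.exists_forall_le' (hc.mono hQQΩ).norm
    fun z hz => norm_pos_iff.2 (hne z (hQQΩ hz))
  set m := min 1 m₀ with hm
  have hm0 : 0 < m := lt_min one_pos hm₀
  have hm1 : m ≤ 1 := min_le_left _ _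
  have hbm : ∀ z ∈ Ω, m ≤ ‖b z‖ := fun z hz => by
    by_cases hA : z ∈ sat Γ (Q ∪ Q')
    · obtain ⟨g, hg⟩ := hA
      rw [← hb g z hz]
      exact (min_le_right _ _).trans (hm₀' _ hg)
    · obtain ⟨t, ht, e⟩ := hG z hz fun ⟨g, hg⟩ => hA ⟨g, Or.inr hg⟩
      rw [e]
      exact hm1.trans (not_le.1 fun h1 => hA (hKA (h.sub.mem_KC (hZ hz) ht h1))).le
  obtain ⟨B, hB⟩ := hQQ.exists_bound_of_continuousOn
    (d.gl.continuous_snd.comp continuous_snd).continuousOn
  obtain ⟨Lb, hBL, hL⟩ := exists_big k B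
  let eκ : Fin (Fintype.card (KK k)) ≃ KK k := (Fintype.equivFin _).symm
  let eτ : Fin (Fintype.card (KK k) + (n + 1)) ≃ TT (n + 1) k :=
    (Fintype.equivFinOfCardEq (by rw [card_TT, add_comm])).symm
  have hnτ : ∀ s : TT (n + 1) k → ℝ, ‖fun i => s (eτ i)‖ = ‖s‖ := fun s =>
    eτ.surjective.pi_norm_comp s
  have hcτ : ContinuousOn (fun z i => b z (eτ i)) Ω :=
    continuousOn_pi.2 fun i => continuousOn_pi.1 hc _
  obtain ⟨b', hb', hbb⟩ := d.gl.exists_fld hfree hΩ hi (b := fun z i => b z (eτ i))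
    (fun g z hz => by simp only [hb g z hz]) hcτ (show 0 < m / 4 by positivity)
  obtain ⟨w, hw⟩ := exists_isBump (Fintype.card (KK k) + (n + 1)) (half_pos hm0)
  obtain ⟨C, hC, hev⟩ := Dat.eval eκ eτ h.sub hw (half_pos hm0) (by linarith) hL
  have h0 := Dat.set0 hΩ hi hZ
  have hH := Dat.fld_Hv eτ hZ h.eqv fun x => h.sub.sub _ (h.mem x)
  refine h.nle ⟨_, (Gl.tw_JH (eκ := eκ) h0 w Lb hb' hH).const_mul C⁻¹, fun x₀ => ?_⟩
  obtain ⟨W, hW, K, hK, hKA', hKΩ, hAK⟩ :=
    exists_tube (fun N hN => isCompact_sat_inter hp hQQ hN) hΩ hAΩ x₀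
  have hx₀ := mem_of_mem_nhds hW
  have hfin : {y | x₀ ∈ F y}.Finite :=
    (h.lf _ isCompact_singleton).subset fun y hy => ⟨x₀, h.sub.sub _ hy, rfl⟩
  have e1 := eventually_sub h.cl (fun N hN => (h.lf N hN).subset
    fun y hy => hy.mono (inter_subset_inter_left _ (h.sub.sub y))) x₀
  have e2 : ∀ᶠ x in 𝓝 x₀, ∀ y ∈ {y | x₀ ∈ F y}, x ∈ d.O y :=
    (eventually_all_finite hfin).2 fun y hy => (h.op y).mem_nhds (h.sub.sub _ hy)
  have e3 := eventually_close hΩ hcτ hK (hKΩ _ hx₀) (show 0 < m / 4 by positivity)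
  refine ⟨_, inter_mem hW (e1.and (e2.and e3)), fun x hx => ?_⟩
  have hout : ∀ p, p ∉ K → ∃ D : Set (Fin (Fintype.card (KK k) + (n + 1)) → ℝ), Convex ℝ D ∧
      (∀ t ∈ D, w t = 0) ∧ ∀ x ∈ W ∩ {x | (∀ y, x ∈ F y → x₀ ∈ F y) ∧
        (∀ y ∈ {y | x₀ ∈ F y}, x ∈ d.O y) ∧
        ∀ p ∈ K, ‖(fun i => b (x, p) (eτ i)) - fun i => b (x₀, p) (eτ i)‖ < m / 4},
        (x, p) ∈ Ω → b' (x, p) ∈ D ∧ d.Hv eτ yl (x, p) ∈ D := by
    intro p hpK
    by_cases hex : ∃ x₁, (∀ y ∈ {y | x₀ ∈ F y}, x₁ ∈ d.O y) ∧ (x₁, p) ∈ Ω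
    swap
    · exact ⟨∅, convex_empty, fun _ ht => ht.elim, fun x hx h1 => (hex ⟨x, hx.2.2.1, h1⟩).elim⟩
    obtain ⟨x₁, hx₁, hx₁'⟩ := hex
    refine ⟨Metric.thickening (m / 4) (LinearMap.funLeft ℝ ℝ eτ ''
      {z | ∃ t, Prob F x₀ t ∧ z = Gs (d.sh p) t p.1.2}),
      ((convex_Gs hfin _ _).linear_image _).thickening _, fun ζ hζ => hw.zero _ ?_,
      fun x hx h1 => ⟨?_, ?_⟩⟩
    · obtain ⟨_, ⟨_, ⟨t, ht, rfl⟩, rfl⟩, h2⟩ := Metric.mem_thickening_iff.1 hζ
      have h3 : 1 < ‖Gs (d.sh p) t p.1.2‖ := not_le.1 fun h3 => hpK (hAK _ hx₀ _ (hKA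
        (Dat.kc_of_norm p.1.1.u.2 ht (fun y hy => ⟨x₁, hx₁ y hy,
          Dat.X_anti (Finset.empty_subset _) _ (hZ hx₁')⟩) h3)))
      rw [← hnτ] at h3
      have h4 := norm_sub_norm_le (LinearMap.funLeft ℝ ℝ eτ (Gs (d.sh p) t p.1.2)) ζ
      rw [← dist_eq_norm, dist_comm] at h4
      change 1 < ‖LinearMap.funLeft ℝ ℝ eτ (Gs (d.sh p) t p.1.2)‖ at h3
      linarith
    · obtain ⟨t, ht, e⟩ := hG _ h1 fun ⟨g, hg⟩ => hpK (hAK _ hx.1 _ ⟨g, Or.inr hg⟩)
      refine Metric.mem_thickening_iff.2 ⟨_, ⟨_, ⟨t, ⟨ht.nn, fun y hy => hx.2.1 y (ht.supp y hy),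
        ht.sum⟩, rfl⟩, rfl⟩, ?_⟩
      have h2 := hbb _ h1
      rw [e] at h2
      rw [dist_eq_norm]
      exact h2
    · exact Metric.self_subset_thickening (by positivity) _
        ⟨_, ⟨_, prob_single (hx.2.1 _ (h.mem x)), rfl⟩, rfl⟩
  have h1 := Gl.hom (eκ := eκ) h0 hw.sm (by linarith [hL.1]) hb' hH ⟨K, hK, fun p hp => by
    obtain ⟨x, g, hg⟩ := hKA' p hp
    exact (hB _ hg).trans_lt hBL, fun x hx => hKΩ x hx.1, hout⟩ hx
  have h2 : d.gl.II eκ (fun v => d.sgn v.u) w Lb Ω b' x = 0 := by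
    refine Gl.II_eq_zero _ _ fun p => ?_
    by_cases hpK : p ∈ K
    · refine ⟨Metric.ball (fun i => b (x₀, p) (eτ i)) (m / 2), convex_ball _ _,
        fun ζ hζ => hw.zero _ ?_, fun h3 i => ?_⟩
      · have h3 := hbm _ (hKΩ _ hx₀ p hpK)
        have h4 := norm_sub_norm_le (fun i => b (x₀, p) (eτ i)) ζ
        rw [hnτ, ← dist_eq_norm, dist_comm] at h4
        linarith [Metric.mem_ball.1 hζ]
      · have h4 := hbb _ (h3 i)
        have h5 := (hx i).2.2.2 p hpK
        rw [← dist_eq_norm] at h4 h5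
        exact ((dist_triangle _ _ _).trans_lt (add_lt_add h4 h5)).trans_eq (by ring)
    · obtain ⟨D, hD, hD0, hD1⟩ := hout p hpK
      exact ⟨D, hD, hD0, fun h3 i => (hD1 _ (hx i) (h3 i)).1⟩
  rw [h2, sub_zero, hev Ω hΩ hZ yl x₀ x fun i => ⟨(hx i).2.1 _ (h.mem _), (hx i).2.2.1,
    fun p hp => hKΩ _ (hx i).1 p (hAK _ hx₀ _ (hKA hp))⟩] at h1
  rw [cob_mul, ← h1, inv_mul_cancel_left₀ hC]

section Reg

variable {ι : Type} {F : ι → Set T}

omit [TopologicalSpace T] in
theorem reg_smul (g : Γ) (y : Lb Γ ι) (x : T) : g • x ∈ reg F (g • y) ↔ x ∈ reg F y := by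
  simp only [reg, mem_ofPred_eq, Lb.smul_g, Lb.smul_i, mul_inv_rev, mul_smul, inv_smul_smul]

theorem finite_reg [Finite ι] (hp : Prp Γ T) (hF : ∀ i, IsCompact (F i)) {N : Set T}
    (hN : IsCompact N) : {y : Lb Γ ι | (reg F y ∩ N).Nonempty}.Finite :=
  (finite_iUnion fun i => (hp N (F i) hN (hF i)).image fun g => (⟨g⁻¹, i⟩ : Lb Γ ι)).subset
    fun y ⟨x, h1, h2⟩ => mem_iUnion.2 ⟨y.i, y.g⁻¹, ⟨x, h2, h1⟩, Lb.ext (inv_inv _) rfl⟩

variable [ContinuousConstSMul Γ T]

theorem isCompact_reg (hF : ∀ i, IsCompact (F i)) (y : Lb Γ ι) : IsCompact (reg F y) := by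
  convert (hF y.i).image (continuous_const_smul y.g) using 1
  ext x
  refine ⟨fun h => ⟨_, h, smul_inv_smul _ _⟩, ?_⟩
  rintro ⟨z, h, rfl⟩
  change y.g⁻¹ • y.g • z ∈ F y.i
  rwa [inv_smul_smul]

theorem isOpen_reg (hF : ∀ i, IsOpen (F i)) (y : Lb Γ ι) : IsOpen (reg F y) :=
  (hF y.i).preimage (continuous_const_smul y.g⁻¹)

end Reg

/-- the data: `O` relatively compact open neighbourhoods, `exists_eqv`, `exists_int_class` -/
theorem exists_dat {S : Type} [TopologicalSpace S] [T2Space S] [LocallyCompactSpace S] (C : Cov S)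
    (a : Cls C (n + 1)) {ι : Type} [Fintype ι] {F : ι → Set C.T} (hF : ∀ i, IsCompact (F i))
    (hcov : ∀ x, ∃ y : Lb C.Γ ι, x ∈ reg F y) :
    ∃ (k : ℕ) (d : Dat C.Γ C.T (Lb C.Γ ι) (n + 1) k) (yl : C.T → Lb C.Γ ι), d.Top (reg F) yl := by
  classical
  choose K hK hFK using fun i => exists_compact_superset (hF i)
  obtain ⟨O, hO⟩ : ∃ O : Lb C.Γ ι → Set C.T, O = reg fun i => interior (K i) := ⟨_, rfl⟩
  have OK : ∀ y, O y ⊆ reg K y := fun y x hx => by
    rw [hO] at hx; exact interior_subset (s := K y.i) hx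
  have FO : ∀ y, reg F y ⊆ O y := fun y x hx => by rw [hO]; exact hFK _ hx
  have Os : ∀ (g : C.Γ) y x, g • x ∈ O (g • y) ↔ x ∈ O y := fun g y x => by
    rw [hO]; exact reg_smul g y x
  have lf : ∀ N, IsCompact N → {y | (O y ∩ N).Nonempty}.Finite := fun N hN =>
    (finite_reg C.prp hK hN).subset fun y hy => hy.mono (inter_subset_inter_left _ (OK y))
  have nb : ∀ y, {y' | (O y ∩ O y').Nonempty}.Finite := fun y =>
    (lf _ (isCompact_reg hK y)).subset fun y' ⟨x, h1, h2⟩ => ⟨x, h2, OK y h1⟩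
  have e1 : ∀ y : Lb C.Γ ι, y.g⁻¹ • y = ⟨1, y.i⟩ := fun y => Lb.ext (inv_mul_cancel _) rfl
  have cl : ∀ y : Lb C.Γ ι, IsClosed (reg F y) := fun y => (isCompact_reg hF y).isClosed
  obtain ⟨yl, hyl, hmem⟩ := exists_eqv C.free (fun x (y : Lb C.Γ ι) => x ∈ reg F y)
    (fun g x y h => (reg_smul g y x).2 h) hcov
  obtain ⟨x₀⟩ : Nonempty C.T := inferInstance
  have hR₀ : {σ : Fin (n + 1 + 1) → Lb C.Γ ι |
      ∀ j, σ j ∈ ⋃ i : ι, {y' | (O ⟨1, i⟩ ∩ O y').Nonempty}}.Finite :=
    Set.Finite.pi' fun _ => finite_iUnion fun i => nb _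
  obtain ⟨α, tw, coc, int, nle⟩ := exists_int_class a.tw a.coc a.nle
    (pos := fun y : Lb C.Γ ι => y.g • x₀) (fun g y => mul_smul _ _ _) hyl
    {σ | ∃ x, ∀ i, x ∈ O (σ i)}
    ⟨hR₀.toFinset, fun σ ⟨x, hx⟩ => ⟨(σ 0).g⁻¹, hR₀.mem_toFinset.2 fun j => mem_iUnion.2
      ⟨(σ 0).i, (σ 0).g⁻¹ • x, e1 (σ 0) ▸ (Os _ _ _).2 (hx 0), (Os _ _ _).2 (hx j)⟩⟩⟩
    (fun σ ⟨x, hx⟩ ρ => ⟨x, fun i => hx _⟩)
    fun x => ⟨_, eventually_sub cl (fun N hN => finite_reg C.prp hF hN) x,
      fun z hz => ⟨x, fun i => FO _ (hz i _ (hmem _))⟩⟩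
  refine ⟨∑ i : ι, {y' | (O ⟨1, i⟩ ∩ O y').Nonempty}.ncard,
    { χ := a.χ
      O := O
      O_smul := Os
      free := fun g y h => mul_eq_right.1 (congrArg Lb.g h)
      reps := Finset.univ.image fun i => ⟨1, i⟩
      cover := fun y => ⟨y.g⁻¹, e1 y ▸ Finset.mem_image_of_mem _ (Finset.mem_univ _)⟩
      nb_fin := nb
      nb_card := fun y => ?_
      α := α
      tw := tw
      coc := coc
      int := int }, yl, ⟨FO, reg_smul⟩, cl, fun y => ?_, lf, hyl, hmem, nle⟩
  · have h1 : {y' | (O y ∩ O y').Nonempty} ⊆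
        (fun y' => y.g • y') '' {y' | (O ⟨1, y.i⟩ ∩ O y').Nonempty} := fun y' ⟨x, h1, h2⟩ =>
      ⟨y.g⁻¹ • y', ⟨y.g⁻¹ • x, e1 y ▸ (Os _ _ _).2 h1, (Os _ _ _).2 h2⟩, smul_inv_smul _ _⟩
    refine ((ncard_le_ncard h1 ((nb _).image _)).trans (ncard_image_le (nb _))).trans
      (le_add_left ?_)
    exact Finset.single_le_sum (f := fun i : ι => {y' | (O ⟨1, i⟩ ∩ O y').Nonempty}.ncard)
      (fun _ _ => Nat.zero_le _) (Finset.mem_univ _)
  · change IsOpen (O y)
    rw [hO]
    exact isOpen_reg (fun _ => isOpen_interior) y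

theorem core : CoreStmt := by
  intro S _ _ _ _ C n hn a ι _ F hF hcov
  obtain ⟨n, rfl⟩ : ∃ m, n = m + 1 := ⟨n - 1, by omega⟩
  obtain ⟨k, d, yl, h⟩ := exists_dat C a hF hcov
  have hQ := h.sub.isCompact_KC h.cl (isCompact_iUnion hF) (h.lf _ (isCompact_iUnion hF))
  have hQK : d.KC (reg F) ⊆ sat C.Γ (d.KC (reg F) ∩ (⋃ i, F i) ×ˢ univ) := fun z hz => by
    obtain ⟨y, hy⟩ := hcov z.1
    exact ⟨y.g⁻¹, h.sub.inv_KC _ z hz, mem_iUnion.2 ⟨y.i, hy⟩, mem_univ _⟩
  refine ⟨{ κ := KK k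
            τ := TT (n + 1) k
            card := card_TT _ _
            Y := d.gl.par
            cntY := d.gl.secondCountable
            Z := d.ZZ
            Z_open := Dat.isOpen_ZZ h.op
            Z_inv := d.inv_ZZ
            Q := d.KC (reg F) ∩ (⋃ i, F i) ×ˢ univ
            Q_cpt := hQ
            Q_sub := inter_subset_left.trans h.sub.KC_sub
            G := d.GG
            G_eqv := d.GG_smul
            M := MM (n + 1) k
            G_loc := fun w => ⟨lab w.2.1.u.1, Gf w.2.1.u.1, contDiff_Gf _, fun c c' y h1 h2 => ?_,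
              fun x η t hz hη ht c => ?_⟩
            G_prop := fun x η t hz ht hG => hQK (h.sub.mem_KC hz ht hG)
            ess := fun Ω hΩ hi hQΩ hZ b hb hc Q' hQ' hQ'Ω hG =>
              h.ess C.free C.prp hQ hQK hΩ hi hQΩ hZ hb hc hQ' hQ'Ω hG }⟩
  · rcases c with c | c
    · rcases c' with c' | c'
      · exact congrArg Sum.inl (w.2.1.u.2.inj c c' y h1 h2)
      · exact absurd h2 (by simp [lab])
    · exact absurd h1 (by simp [lab])
  · obtain ⟨h1, h2⟩ := d.gl.in_iff.1 hη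
    have h3 := d.GG_sec h1 (x := x) (by rw [h2]; exact hz) (t := t) fun y hy => h.sub.sub y (ht y hy)
    rw [h2] at h3
    exact congrFun h3 c

end Crest.Agent.N222.C
end
end

-- ▼ part N222/C/Act
section

/-!
# Row 222, part C: the action of the deck group on a covering of the target

`X` is arbitrary (not locally path connected), so the bijections `ρ g` need not be continuous; they
map paths to paths and simplices to simplices.  Let `D` be the group of the permutations `δ` of `E`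
over `X` such that `δ ∘ ω` is continuous for every path `ω`; it acts freely and transitively on the
fibres (monodromy theorem, `E` is simply connected); `ρ g` is the element of `D` with
`ρ g (c' t₀) = c' (g • t₀)`.
-/

set_option autoImplicit false

open Set Filter Topology
open Crest.Agent.R251.Sm (Dn face)

noncomputable section

namespace Crest.Agent.N222.C

/-- an action by bijections which preserve singular simplices -/
structure SAct (Γ E : Type) [Group Γ] [TopologicalSpace E] where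
  ρ : Γ →* Equiv.Perm E
  cont : ∀ (g : Γ) (k : ℕ) (σ : C(Dn k, E)), Continuous fun t => ρ g (σ t)

/-- the action on simplices -/
def SAct.act {Γ E : Type} [Group Γ] [TopologicalSpace E] (A : SAct Γ E) (g : Γ) {k : ℕ}
    (σ : C(Dn k, E)) : C(Dn k, E) := ⟨fun t => A.ρ g (σ t), A.cont g k σ⟩

namespace Act

open unitInterval

theorem lpc {T S : Type} [TopologicalSpace T] [TopologicalSpace S] [LocallyPathConnectedSpace S]
    {p : T → S} (hp : IsLocalHomeomorph p) : LocallyPathConnectedSpace T := by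
  choose e he _ using hp
  let _ : ChartedSpace S T := ⟨range e, e, he, mem_range_self⟩
  exact ChartedSpace.locallyPathConnectedSpace S T

variable {X E : Type} [TopologicalSpace X] [TopologicalSpace E] {q : E → X}

/-- maps over `X` that preserve paths -/
def PF (q : E → X) (δ : E → E) : Prop :=
  (∀ e, q (δ e) = q e) ∧ ∀ ω : C(I, E), Continuous fun t => δ (ω t)

omit [TopologicalSpace X] in
theorem PF.comp {δ δ' : E → E} (h : PF q δ) (h' : PF q δ') : PF q fun e => δ (δ' e) :=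
  ⟨fun e => (h.1 _).trans (h'.1 e), fun ω => h.2 ⟨_, h'.2 ω⟩⟩

/-- comparison with a lift -/
theorem PF.eq_lift (hq : IsCoveringMap q) {δ : E → E} (h : PF q δ) {A : Type} [TopologicalSpace A]
    [PathConnectedSpace A] (s : C(A, E)) {F : A → E}
    (hF : ∀ γ : C(I, A), Continuous fun t => F (γ t)) (e : ∀ a, q (F a) = q (s a)) {a₀ : A}
    (h0 : δ (s a₀) = F a₀) (a : A) : δ (s a) = F a := by
  let γ := PathConnectedSpace.somePath a₀ a
  have := congrFun (hq.eq_of_comp_eq (h.2 (s.comp γ)) (hF γ)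
    (funext fun t => (h.1 _).trans (e _).symm) 0 (by simpa using h0)) 1
  simpa using this

theorem PF.cont (hq : IsCoveringMap q) {δ : E → E} (h : PF q δ) {A : Type} [TopologicalSpace A]
    [SimplyConnectedSpace A] [LocallyPathConnectedSpace A] (s : C(A, E)) :
    Continuous fun a => δ (s a) := by
  obtain ⟨a₀⟩ : Nonempty A := inferInstance
  obtain ⟨F, ⟨h0, hF⟩, -⟩ := hq.existsUnique_continuousMap_lifts
    (ContinuousMap.comp ⟨q, hq.continuous⟩ s) a₀ (δ (s a₀)) (h.1 _)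
  rw [funext (h.eq_lift hq s (fun γ => (F.comp γ).continuous) (congrFun hF) h0.symm)]
  exact F.continuous

theorem exists_PF [SimplyConnectedSpace E] (hq : IsCoveringMap q) {e₀ e₁ : E} (h : q e₀ = q e₁) :
    ∃ δ, PF q δ ∧ δ e₀ = e₁ := by
  let Q : C(E, X) := ⟨q, hq.continuous⟩
  have h0 : ∀ {ω : C(I, E)}, ω 0 = e₀ → Q.comp ω 0 = q e₁ := fun hω => (congrArg q hω).trans h
  let δ : E → E := fun e => hq.liftPath (Q.comp (PathConnectedSpace.somePath e₀ e)) e₁
    (h0 (Path.source _)) 1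
  have key : ∀ ω ω' : C(I, E), ω 0 = e₀ → ω' 0 = e₁ → (∀ t, q (ω' t) = q (ω t)) →
      δ (ω 1) = ω' 1 := fun ω ω' h1 h2 h3 => by
    have e : ω' = hq.liftPath (Q.comp ω) e₁ (h0 h1) := (hq.eq_liftPath_iff' _).2 ⟨funext h3, h2⟩
    rw [e]
    exact hq.liftPath_apply_one_eq_of_homotopicRel (ContinuousMap.HomotopicRel.comp_continuousMap
      (SimplyConnectedSpace.paths_homotopic (PathConnectedSpace.somePath e₀ (ω 1)) ⟨ω, h1, rfl⟩) Q)
      e₁ _ _
  have key2 : ∀ β : C(I, E), β 0 = e₀ → Continuous fun t => δ (β t) := fun β hβ => by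
    have e : (fun t => δ (β t)) = hq.liftPath (Q.comp β) e₁ (h0 hβ) := funext fun s => by
      let r : C(I, I) := ⟨fun t => s * t, by fun_prop⟩
      have := key (β.comp r) ((hq.liftPath (Q.comp β) e₁ (h0 hβ)).comp r) (by simpa [r] using hβ)
        (by simpa [r] using hq.liftPath_zero _ _ _) fun t => congrFun (hq.liftPath_lifts _ _ _) _
      simpa [r] using this
    rw [e]
    exact ContinuousMap.continuous _
  refine ⟨δ, ⟨fun e => (congrFun (hq.liftPath_lifts _ _ _) 1).trans (congrArg q (Path.target _)),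
    fun ω => ?_⟩, key (.const I e₀) (.const I e₁) rfl rfl fun _ => h.symm⟩
  let β := (PathConnectedSpace.somePath e₀ (ω 0)).trans (⟨ω, rfl, rfl⟩ : Path (ω 0) (ω 1))
  have e : (fun t => δ (ω t)) = fun t : I => δ (β (projIcc 0 1 zero_le_one ((1 + t) / 2))) := by
    funext t
    congr 1
    have := Path.extend_trans_of_half_le (PathConnectedSpace.somePath e₀ (ω 0))
      (⟨ω, rfl, rfl⟩ : Path (ω 0) (ω 1)) (t := (1 + t) / 2) (by linarith [t.2.1])
    rw [show 2 * ((1 + (t : ℝ)) / 2) - 1 = t by ring, Path.extend_extends'] at this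
    exact this.symm
  rw [e]
  exact (key2 β β.source).comp (continuous_projIcc.comp (by fun_prop))

end Act

open Act in
theorem exists_act {S X E : Type} [TopologicalSpace S] [LocallyPathConnectedSpace S]
    [TopologicalSpace X] [TopologicalSpace E] [SimplyConnectedSpace E] (C : Cov S) {q : E → X}
    (hq : IsCoveringMap q) (hs : Function.Surjective q) (c : C(S, X)) :
    ∃ (c' : C(C.T, E)) (A : SAct C.Γ E), (∀ t, q (c' t) = c (C.p t)) ∧ (∀ g e, q (A.ρ g e) = q e) ∧
      ∀ (g : C.Γ) t, A.ρ g (c' t) = c' (g • t) := by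
  have := C.sc
  have := lpc C.qc.isCoveringMap.isLocalHomeomorph
  have := C.qc.toContinuousConstSMul
  obtain ⟨t₀⟩ : Nonempty C.T := inferInstance
  obtain ⟨e₀, he₀⟩ := hs (c (C.p t₀))
  obtain ⟨c', ⟨-, hc⟩, -⟩ := hq.existsUnique_continuousMap_lifts
    (c.comp ⟨C.p, C.qc.isCoveringMap.continuous⟩) t₀ e₀ he₀
  have hc' : ∀ t, q (c' t) = c (C.p t) := congrFun hc
  have hg : ∀ (g : C.Γ) t, q (c' (g • t)) = q (c' t) := fun g t => by
    rw [hc', hc', C.qc.map_smul g]
  choose δ hδ h0 using fun g : C.Γ => exists_PF hq (hg g t₀).symm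
  have h1 : ∀ (g : C.Γ) t, δ g (c' t) = c' (g • t) := fun g =>
    (hδ g).eq_lift hq c' (F := fun t => c' (g • t)) (fun γ => by fun_prop) (hg g) (h0 g)
  have uniq : ∀ {f f' : E → E}, PF q f → PF q f' → f (c' t₀) = f' (c' t₀) → ∀ e, f e = f' e :=
    fun h h' e => h.eq_lift hq (.id E) h'.2 h'.1 e
  have e1 : ∀ e, δ 1 e = e :=
    uniq (f' := fun e => e) (hδ 1) ⟨fun _ => rfl, fun ω => ω.continuous⟩ (by rw [h0, one_smul])
  have e2 : ∀ g h e, δ (g * h) e = δ g (δ h e) := fun g h =>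
    uniq (hδ (g * h)) ((hδ g).comp (hδ h)) (by rw [h0, h0, h1, mul_smul])
  let _ : MulAction C.Γ E := { smul := δ, one_smul := e1, mul_smul := e2 }
  refine ⟨c', ⟨MulAction.toPermHom C.Γ E, fun g k σ => ?_⟩, hc', fun g => (hδ g).1, h1⟩
  have : ContractibleSpace (Dn k) := (convex_stdSimplex ℝ (Fin (k + 1))).contractibleSpace
    ⟨_, (stdSimplex.vertex 0 : Dn k).2⟩
  have : LocallyPathConnectedSpace (Dn k) :=
    (convex_stdSimplex ℝ (Fin (k + 1))).locallyPathConnectedSpace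
  exact (hδ g).cont hq σ

end Crest.Agent.N222.C
end
end

-- ▼ part N222/C/Fill
section

/-!
# Row 222, part C: equivariant fillings in a contractible space

With the rational chains of `R263.SCQ734` (`sgl`, `bd`, `liftC`, `exists_bd_of_contractible`) and
`exists_eqv` on the free `Γ`-sets of tuples and of singular simplices of `T`, construct by induction
equivariant `f k : (Fin (k+1) → T) → C_k(E)` with `∂ f x = ∑ ± f (x ∘ succAbove i)`,
`f 0 x = [c' (x 0)]`, and `h k : C(Dn k, T) → C_{k+1}(E)` with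
`∂ h σ + ∑ ± h (σ ∘ face i) = [c' ∘ σ] - f (vert σ)` (`h 0 = 0`).  Put `a = β ∘ f`, `ψ = β ∘ h`.
-/

set_option autoImplicit false

open Set Filter Topology
open Crest.Agent.R251.Sm (Dn face)

noncomputable section

namespace Crest.Agent.N222.C

namespace Fill

open Crest.Agent.R263.SCQ734 (SC sgl bd liftC liftC_sgl chain_ext exists_bd_of_contractible)

section alg

variable {Y T V W : Type} [TopologicalSpace T] [AddCommGroup V] [Module ℚ V] [AddCommGroup W]
  [Module ℚ W] {k : ℕ}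

/-- vector valued `cob` -/
def cobV (f : (Fin k → Y) → V) (y : Fin (k + 1) → Y) : V :=
  ∑ i : Fin (k + 1), (-1 : ℤ) ^ (i : ℕ) • f (fun j => y (i.succAbove j))

/-- vector valued `scob` -/
def scobV (φ : C(Dn k, T) → V) (σ : C(Dn (k + 1), T)) : V :=
  ∑ i : Fin (k + 2), (-1 : ℤ) ^ (i : ℕ) • φ (σ.comp (face i))

theorem map_cobV (L : V →ₗ[ℚ] W) (f : (Fin k → Y) → V) (y : Fin (k + 1) → Y) :
    L (cobV f y) = cobV (fun x => L (f x)) y := by
  simp only [cobV, map_sum, map_zsmul]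

theorem map_scobV (L : V →ₗ[ℚ] W) (φ : C(Dn k, T) → V) (σ : C(Dn (k + 1), T)) :
    L (scobV φ σ) = scobV (fun x => L (φ x)) σ := by
  simp only [scobV, map_sum, map_zsmul]

theorem cobV_real (f : (Fin k → Y) → ℝ) : cobV f = cob f := by
  funext y
  simp [cobV, cob]

theorem scobV_real (φ : C(Dn k, T) → ℝ) : scobV φ = scob φ := by
  funext y
  simp [scobV, scob]

theorem eq_zero_of {v : V} (h : ∀ L : V →ₗ[ℚ] ℝ, L v = 0) : v = 0 :=
  (Module.forall_dual_apply_eq_zero_iff ℚ v).1 fun φ => by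
    simpa using h ((Algebra.linearMap ℚ ℝ).comp φ)

theorem cobV_cobV (f : (Fin k → Y) → V) (y : Fin (k + 2) → Y) : cobV (cobV f) y = 0 :=
  eq_zero_of fun L => by
    simp only [map_cobV, cobV_real]
    exact congrFun (cob_cob fun x => L (f x)) y

theorem scobV_scobV (φ : C(Dn k, T) → V) (σ : C(Dn (k + 2), T)) : scobV (scobV φ) σ = 0 :=
  eq_zero_of fun L => by
    simp only [map_scobV, scobV_real]
    exact scob_scob (fun x => L (φ x)) σ

omit [Module ℚ V] in
theorem scobV_sub (φ φ' : C(Dn k, T) → V) (σ : C(Dn (k + 1), T)) :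
    scobV (fun x => φ x - φ' x) σ = scobV φ σ - scobV φ' σ := by
  simp only [scobV, smul_sub, Finset.sum_sub_distrib]

omit [Module ℚ V] in
theorem scobV_vert (f : (Fin (k + 1) → T) → V) (σ : C(Dn (k + 1), T)) :
    scobV (fun τ => f (vert τ)) σ = cobV f (vert σ) := by
  simp only [scobV, cobV, vert_face]

theorem bd_sgl (σ : C(Dn (k + 1), T)) : bd T k (sgl σ) = scobV sgl σ :=
  Crest.Agent.R263.SCQ734.bd_sgl σ

theorem eq_const (τ : C(Dn 0, T)) : τ = ContinuousMap.const _ (vert τ 0) := by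
  ext s
  exact congrArg τ (Subsingleton.elim _ _)

theorem exists_path [PathConnectedSpace T] (x y : T) : ∃ c, bd T 0 c =
    sgl (ContinuousMap.const _ y) - sgl (ContinuousMap.const _ x) := by
  let γ := PathConnectedSpace.somePath x y
  let σ : C(Dn 1, T) := γ.toContinuousMap.comp (stdSimplexHomeomorphUnitInterval : C(_, _))
  have h0 : vert σ 0 = x := by
    change γ (stdSimplexHomeomorphUnitInterval _) = x
    rw [show stdSimplexHomeomorphUnitInterval (stdSimplex.vertex (0 : Fin 2)) = 0 from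
      stdSimplexHomeomorphUnitInterval_zero, γ.source]
  have h1 : vert σ 1 = y := by
    change γ (stdSimplexHomeomorphUnitInterval _) = y
    rw [show stdSimplexHomeomorphUnitInterval (stdSimplex.vertex (1 : Fin 2)) = 1 from
      stdSimplexHomeomorphUnitInterval_one, γ.target]
  refine ⟨sgl σ, ?_⟩
  rw [bd_sgl, scobV, Fin.sum_univ_two, eq_const (σ.comp (face 0)), eq_const (σ.comp (face 1)),
    vert_face, vert_face, ← h0, ← h1]
  simp [sub_eq_add_neg]

end alg

variable {Γ T E : Type} [Group Γ] [TopologicalSpace T] [MulAction Γ T] [ContinuousConstSMul Γ T]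
  [TopologicalSpace E] (A : SAct Γ E) {k : ℕ}

/-- the action on chains -/
def actC (g : Γ) (k : ℕ) : (SC E).X k →ₗ[ℚ] (SC E).X k := liftC fun σ => sgl (A.act g σ)

theorem actC_sgl (g : Γ) (σ : C(Dn k, E)) : actC A g k (sgl σ) = sgl (A.act g σ) := liftC_sgl _ _

theorem bd_actC (g : Γ) (x : (SC E).X (k + 1)) :
    bd E k (actC A g (k + 1) x) = actC A g k (bd E k x) := by
  have : (bd E k).comp (actC A g (k + 1)) = (actC A g k).comp (bd E k) := chain_ext fun σ => by
    simp only [LinearMap.comp_apply, actC_sgl, bd_sgl, map_scobV]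
    rfl
  exact LinearMap.congr_fun this x

/-- the action on chains as a `MulAction` -/
@[reducible] def mulAct (k : ℕ) : MulAction Γ ((SC E).X k) where
  smul g x := actC A g k x
  one_smul x := by
    have : actC A 1 k = LinearMap.id := chain_ext fun σ => by
      rw [actC_sgl, LinearMap.id_apply]
      congr 1
      ext t
      simp [SAct.act]
    exact LinearMap.congr_fun this x
  mul_smul g g' x := by
    have : actC A (g * g') k = (actC A g k).comp (actC A g' k) := chain_ext fun σ => by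
      simp only [LinearMap.comp_apply, actC_sgl]
      congr 1
      ext t
      simp [SAct.act]
    exact LinearMap.congr_fun this x

/-- equivariant maps into chains -/
def Eqv {B : Type} [MulAction Γ B] (f : B → (SC E).X k) : Prop :=
  ∀ (g : Γ) b, f (g • b) = actC A g k (f b)

variable {A}

theorem fill {B : Type} [MulAction Γ B] (hfree : ∀ (g : Γ) (b : B), g • b = b → g = 1)
    {z : B → (SC E).X k} (hz : Eqv A z) (h : ∀ b, ∃ y, bd E k y = z b) :
    ∃ f : B → (SC E).X (k + 1), Eqv A f ∧ ∀ b, bd E k (f b) = z b := by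
  let _ := mulAct A (k + 1)
  exact exists_eqv hfree (fun b y => bd E k y = z b)
    (fun g b y hy => (bd_actC A g y).trans (by rw [hy, hz])) h

omit [TopologicalSpace T] [ContinuousConstSMul Γ T] in
theorem Eqv.cobV {m : ℕ} {f : (Fin m → T) → (SC E).X k} (hf : Eqv A f) : Eqv A (cobV f) :=
  fun g x => by
    rw [map_cobV]
    exact Finset.sum_congr rfl fun i _ => congrArg _ (hf g fun j => x (i.succAbove j))

theorem Eqv.scobV {m : ℕ} {h : C(Dn m, T) → (SC E).X k} (hh : Eqv A h) : Eqv A (scobV h) :=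
  fun g σ => by
    rw [map_scobV]
    exact Finset.sum_congr rfl fun i _ => congrArg _ (hh g (σ.comp (face i)))

/-- the invariant of the induction -/
structure Inv (A : SAct Γ E) (c' : C(T, E)) (f : (Fin (k + 1) → T) → (SC E).X k)
    (h : C(Dn k, T) → (SC E).X (k + 1)) : Prop where
  ef : Eqv A f
  eh : Eqv A h
  bf : ∀ x, ∃ y, bd E k y = cobV f x
  bh : ∀ σ : C(Dn (k + 1), T), bd E k (scobV h σ) = bd E k (sgl (c'.comp σ)) - cobV f (vert σ)

variable [ContractibleSpace E] {c' : C(T, E)}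

theorem step (hfree : ∀ (g : Γ) (x : T), g • x = x → g = 1)
    (hc : ∀ (g : Γ) t, A.ρ g (c' t) = c' (g • t)) {f : (Fin (k + 1) → T) → (SC E).X k}
    {h : C(Dn k, T) → (SC E).X (k + 1)} (H : Inv A c' f h) :
    ∃ f' h', Inv (k := k + 1) A c' f' h' ∧
      ∀ σ, bd E (k + 1) (h' σ) = sgl (c'.comp σ) - f' (vert σ) - scobV h σ := by
  obtain ⟨f', ef, hf⟩ := fill (fun g (x : Fin (k + 2) → T) e => hfree g (x 0) (congrFun e 0))
    H.ef.cobV H.bf
  obtain ⟨h', eh, hh⟩ := fill (A := A) (B := C(Dn (k + 1), T))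
    (fun g σ e => hfree g (vert σ 0) (congrArg (fun τ => vert τ 0) e))
    (z := fun σ => sgl (c'.comp σ) - f' (vert σ) - scobV h σ) (fun g σ => by
      have e : c'.comp (g • σ) = A.act g (c'.comp σ) := by
        ext t
        exact (hc g (σ t)).symm
      simp only [map_sub, actC_sgl]
      rw [e, H.eh.scobV g σ, ← ef g (vert σ)]
      rfl)
    fun σ => exists_bd_of_contractible _ (by rw [map_sub, map_sub, hf, H.bh, sub_self])
  refine ⟨f', h', ⟨ef, eh, fun x => exists_bd_of_contractible _ ?_, fun σ => ?_⟩, hh⟩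
  · simp only [map_cobV, hf]
    exact cobV_cobV f x
  · simp only [map_scobV, hh]
    rw [scobV_sub, scobV_sub, scobV_vert f', scobV_scobV h, sub_zero, bd_sgl]
    rfl

theorem exists_inv (hfree : ∀ (g : Γ) (x : T), g • x = x → g = 1)
    (hc : ∀ (g : Γ) t, A.ρ g (c' t) = c' (g • t)) (k : ℕ) : ∃ f h, Inv (k := k) A c' f h := by
  induction k with
  | zero =>
    refine ⟨fun x => sgl (ContinuousMap.const _ (c' (x 0))), fun _ => 0, fun g x => ?_,
      fun g σ => (map_zero _).symm, fun x => ?_, fun σ => ?_⟩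
    · rw [actC_sgl]
      congr 1
      ext t
      exact (hc g (x 0)).symm
    · obtain ⟨c, e⟩ := exists_path (c' (x 0)) (c' (x 1))
      refine ⟨c, e.trans ?_⟩
      simp [cobV, Fin.sum_univ_two, sub_eq_add_neg]
    · rw [← scobV_vert (fun x => sgl (ContinuousMap.const (Dn 0) (c' (x 0)))), bd_sgl]
      have e : scobV sgl (c'.comp σ) =
          scobV (fun τ : C(Dn 0, T) => sgl (ContinuousMap.const (Dn 0) (c' (vert τ 0)))) σ :=
        Finset.sum_congr rfl fun i _ => congrArg _ (congrArg _ (eq_const _))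
      rw [e, sub_self]
      simp [scobV]
  | succ k ih =>
    obtain ⟨f, h, H⟩ := ih
    obtain ⟨f', h', H', -⟩ := step hfree hc H
    exact ⟨f', h', H'⟩

end Fill

open Fill in
open Crest.Agent.R263.SCQ734 (bd liftC liftC_sgl chain_ext) in
theorem exists_fill {Γ T E : Type} [Group Γ] [TopologicalSpace T] [MulAction Γ T]
    [ContinuousConstSMul Γ T] [TopologicalSpace E] [ContractibleSpace E]
    (hfree : ∀ (g : Γ) (x : T), g • x = x → g = 1) (A : SAct Γ E) (c' : C(T, E))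
    (hc : ∀ (g : Γ) t, A.ρ g (c' t) = c' (g • t)) {n : ℕ} {β : C(Dn (n + 1), E) → ℝ}
    (hβ : ∀ g σ, β (A.act g σ) = β σ) (hcoc : ∀ σ, scob β σ = 0) :
    ∃ (a : (Fin (n + 1 + 1) → T) → ℝ) (ψ : C(Dn n, T) → ℝ), Tw (1 : Γ →* ℤˣ) a ∧ cob a = 0 ∧
      STw (1 : Γ →* ℤˣ) ψ ∧ ∀ σ : C(Dn (n + 1), T), β (c'.comp σ) - a (vert σ) = scob ψ σ := by
  obtain ⟨f, h, H⟩ := Fill.exists_inv hfree hc n
  obtain ⟨f', h', H', hh⟩ := step hfree hc H
  have e1 : ∀ y, liftC β (bd E (n + 1) y) = 0 := fun y =>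
    LinearMap.congr_fun (f := (liftC β).comp (bd E (n + 1))) (g := 0) (chain_ext fun σ => by
      simp only [LinearMap.comp_apply, Fill.bd_sgl, map_scobV, liftC_sgl, scobV_real,
        LinearMap.zero_apply]
      exact hcoc σ) y
  have e2 : ∀ g y, liftC β (actC A g (n + 1) y) = liftC β y := fun g y =>
    LinearMap.congr_fun (f := (liftC β).comp (actC A g (n + 1))) (chain_ext fun σ => by
      simp only [LinearMap.comp_apply, actC_sgl, liftC_sgl, hβ]) y
  refine ⟨fun x => liftC β (f' x), fun σ => liftC β (h σ), fun g x => ?_, funext fun x => ?_,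
    fun g σ => ?_, fun σ => ?_⟩
  · have := H'.ef g x
    simp only [sg, MonoidHom.one_apply, Units.val_one, Int.cast_one, one_mul]
    exact (congrArg _ this).trans (e2 g _)
  · obtain ⟨y, hy⟩ := H'.bf x
    rw [← cobV_real, ← map_cobV, ← hy, e1, Pi.zero_apply]
  · simp only [sg, MonoidHom.one_apply, Units.val_one, Int.cast_one, one_mul]
    exact (congrArg _ (H.eh g σ)).trans (e2 g _)
  · have := e1 (h' σ)
    rw [hh, map_sub, map_sub, liftC_sgl, map_scobV, scobV_real] at this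
    exact sub_eq_zero.1 this

end Crest.Agent.N222.C
end
end

-- ▼ part N222/C/Sing
section

/-!
# Row 222, part C: `sing : SingStmt`
-/

set_option autoImplicit false

open Set Filter Topology
open Crest.Agent.R251.Sm (Dn face)

noncomputable section

namespace Crest.Agent.N222.C

namespace Sing

open Crest.Agent.R263.SCQ734 (liftC bd sgl bd_sgl liftC_sgl)

theorem map_bd {X : Type} [TopologicalSpace X] {n : ℕ} (L : (R263.SCQ734.SC X).X n →ₗ[ℚ] ℝ)
    (σ : C(Dn (n + 1), X)) : L (bd X n (sgl σ)) = scob (fun τ => L (sgl τ)) σ := by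
  rw [bd_sgl, map_sum]
  refine Finset.sum_congr rfl fun i _ => ?_
  rw [map_zsmul, zsmul_eq_mul, Int.cast_pow, Int.cast_neg, Int.cast_one]
  rfl

theorem scob_add {T : Type} [TopologicalSpace T] {n : ℕ} (φ ψ : C(Dn n, T) → ℝ)
    (σ : C(Dn (n + 1), T)) : scob (fun τ => φ τ + ψ τ) σ = scob φ σ + scob ψ σ := by
  simp only [scob, mul_add, Finset.sum_add_distrib]

theorem scob_sub {T : Type} [TopologicalSpace T] {n : ℕ} (φ ψ : C(Dn n, T) → ℝ)
    (σ : C(Dn (n + 1), T)) : scob (fun τ => φ τ - ψ τ) σ = scob φ σ - scob ψ σ := by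
  simp only [scob, mul_sub, Finset.sum_sub_distrib]

end Sing

open Crest.Agent.R263.SCQ734 (liftC bd sgl push hcl hcl_surjective map_hcl hcl_eq_zero_iff chain_ext
  liftC_sgl push_sgl mem_cyc_succ Hmap) in
/-- a non zero map in homology is detected by a cocycle (a `ℚ`-linear form on `C_{n+1}(X)` which
kills the boundaries and not the image of a cycle) -/
theorem exists_cocycle {S X : Type} [TopologicalSpace S] [TopologicalSpace X] (c : C(S, X)) {n : ℕ}
    (h : ((AlgebraicTopology.singularHomologyFunctor (ModuleCat.{0} ℚ) (n + 1)).obj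
      (ModuleCat.of ℚ ℚ)).map (TopCat.ofHom c) ≠ 0) :
    ∃ β : C(Dn (n + 1), X) → ℝ, (∀ σ, scob β σ = 0) ∧
      ∀ ψ : C(Dn n, S) → ℝ, ¬ ∀ σ, scob ψ σ = β (c.comp σ) := by
  have h1 : ∃ x, Hmap c (n + 1) (hcl S (n + 1) x) ≠ 0 := by
    by_contra h2
    refine h (ModuleCat.hom_ext (LinearMap.ext fun z => ?_))
    obtain ⟨x, rfl⟩ := hcl_surjective S (n + 1) z
    exact not_not.1 fun h3 => h2 ⟨x, h3⟩
  obtain ⟨x, hx⟩ := h1
  rw [map_hcl, Ne, hcl_eq_zero_iff] at hx
  obtain ⟨f, hf, hf0⟩ := Submodule.exists_dual_map_eq_bot_of_notMem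
    (p := LinearMap.range (bd X (n + 1))) (x := push c (n + 1) x.1) hx inferInstance
  let L := (Algebra.linearMap ℚ ℝ).comp f
  refine ⟨fun σ => L (sgl σ), fun σ => ?_, fun ψ hψ => hf ?_⟩
  · have : f (bd X (n + 1) (sgl σ)) = 0 :=
      (Submodule.eq_bot_iff _).1 hf0 _ (Submodule.mem_map_of_mem (LinearMap.mem_range_self _ _))
    rw [← Sing.map_bd, LinearMap.comp_apply, this, map_zero]
  · have e : (liftC ψ).comp (bd S n) = L.comp (push c (n + 1)) := chain_ext fun σ => by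
      rw [LinearMap.comp_apply, Sing.map_bd, LinearMap.comp_apply, push_sgl]
      simp only [liftC_sgl]
      exact hψ σ
    have := LinearMap.congr_fun e x.1
    rw [LinearMap.comp_apply, (mem_cyc_succ _).1 x.2, map_zero] at this
    exact (algebraMap ℚ ℝ).injective (this.symm.trans (map_zero _).symm)

/-- simplices lift -/
theorem Cov.exists_lift {S : Type} [TopologicalSpace S] (C : Cov S) {k : ℕ} (σ : C(Dn k, S)) :
    ∃ τ : C(Dn k, C.T), ∀ t, C.p (τ t) = σ t := by
  obtain ⟨t₀⟩ : Nonempty (Dn k) := inferInstance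
  have := (convex_stdSimplex ℝ (Fin (k + 1))).contractibleSpace ⟨_, t₀.2⟩
  have := (convex_stdSimplex ℝ (Fin (k + 1))).locallyPathConnectedSpace
  obtain ⟨e, he⟩ := C.qc.surjective (σ t₀)
  obtain ⟨τ, hτ, -⟩ := C.cov.existsUnique_continuousMap_lifts σ t₀ e he
  exact ⟨τ, congrFun hτ.2⟩

/-- two lifts differ by a deck transformation -/
theorem Cov.lift_unique {S : Type} [TopologicalSpace S] (C : Cov S) {k : ℕ} {τ τ' : C(Dn k, C.T)}
    (h : ∀ t, C.p (τ t) = C.p (τ' t)) : ∃ g : C.Γ, τ' = g • τ := by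
  obtain ⟨t₀⟩ : Nonempty (Dn k) := inferInstance
  obtain ⟨g, hg⟩ := C.exists_smul (h t₀).symm
  exact ⟨g, DFunLike.coe_injective (C.cov.eq_of_comp_eq τ'.continuous (g • τ).continuous
    (funext fun t => (h t).symm.trans (C.p_smul g _).symm) t₀ hg.symm)⟩

/-- `β = β_X ∘ q`, `exists_act`, `exists_fill`; if `a` were locally exact, `small_vanish` would make
`β_X (c ∘ p ∘ σ)` the coboundary of an invariant cochain, which descends to `S`. -/
theorem sing_stmt : SingStmt := by
  intro n S _ _ C X _ ⟨E, _, q, hE, hq, hs⟩ c hn h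
  have := ChartedSpace.locallyPathConnectedSpace (EuclideanSpace ℝ (Fin n)) S
  obtain ⟨m, rfl⟩ : ∃ m, n = m + 1 := ⟨n - 1, by omega⟩
  obtain ⟨β, hβ, hne⟩ := exists_cocycle c h
  obtain ⟨c', A, h1, h2, h3⟩ := exists_act C hq hs c
  let Q : C(E, X) := ⟨q, hq.continuous⟩
  obtain ⟨a, ψ, ht, hc, hψ, e⟩ := exists_fill C.free A c' h3 (β := fun σ => β (Q.comp σ))
    (fun g σ => congrArg β (ContinuousMap.ext fun t => h2 g _)) fun σ => hβ (Q.comp σ)
  refine ⟨⟨1, a, ht, hc, fun ⟨γ, hγ, hl⟩ => ?_⟩⟩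
  obtain ⟨ψ', hψ', e'⟩ := small_vanish (χ := (1 : C.Γ →* ℤˣ))
    (φ := fun σ : C(Dn (m + 1), C.T) => a (vert σ) - scob (fun τ => γ (vert τ)) σ)
    (fun g σ => (congrArg₂ (· - ·) (ht.vert g σ) (hγ.vert.scob g σ)).trans (mul_sub _ _ _).symm)
    (fun σ => by rw [Sing.scob_sub, scob_vert, scob_scob, hc, sub_zero]; rfl)
    fun x₀ => (hl x₀).imp fun W hW => ⟨hW.1, fun σ hσ => by
      rw [scob_vert, hW.2 (vert σ) fun i => hσ (mem_range_self _), sub_self]⟩
  let Ψ : C(Dn m, C.T) → ℝ := fun τ => ψ τ + (ψ' τ + γ (vert τ))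
  have hΨ : ∀ (g : C.Γ) τ, Ψ (g • τ) = Ψ τ := fun g τ => by
    have h4 : γ (vert (g • τ)) = _ := hγ.vert g τ
    simp only [Ψ, hψ g τ, hψ' g τ, h4, sg, MonoidHom.one_apply, Units.val_one,
      Int.cast_one, one_mul]
  choose l hl using fun σ : C(Dn m, S) => C.exists_lift σ
  refine hne (fun σ => Ψ (l σ)) fun σ => ?_
  obtain ⟨τ, hτ⟩ := C.exists_lift σ
  have e1 : scob (fun σ => Ψ (l σ)) σ = scob Ψ τ := Finset.sum_congr rfl fun i _ => by
    obtain ⟨g, hg⟩ := C.lift_unique (τ := τ.comp (face i)) (τ' := l (σ.comp (face i)))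
      fun t => (hτ _).trans (hl (σ.comp (face i)) t).symm
    simp only [hg, hΨ]
  have e2 : c.comp σ = Q.comp (c'.comp τ) := ContinuousMap.ext fun t => by
    change c (σ t) = q (c' (τ t))
    rw [h1, hτ]
  rw [e1, e2, Sing.scob_add, Sing.scob_add, e', ← e]
  ring

end Crest.Agent.N222.C
end
end

-- ▼ part N222/As/Defs
section

/-!
# Row 222, `C.AsphStmt` (helper11): FROZEN definitions and statements

`Fil` : controlled equivariant filling of tuples by singular simplices.  `LCls` : a class given near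
the diagonal.  `Ori` : orientation of the universal covering.  `Net`, `pair` : Whitney pairing.
-/

set_option autoImplicit false
open Set Filter Topology MeasureTheory
open scoped ContDiff Manifold

noncomputable section

namespace Crest.Agent.N222.As

open Crest.Agent.N222.C Crest.Agent.R251.Sm

/-- Euclidean space -/
abbrev Eu (n : ℕ) : Type := EuclideanSpace ℝ (Fin n)

/-- boundary of the simplex -/
def Bd (k : ℕ) : Set (Dn k) := {x | ∃ i, x.1 i = 0}




/-- controlled equivariant filling -/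
structure Fil {S : Type} [TopologicalSpace S] (C : Cov S) where
  f : ∀ k : ℕ, (Fin (k + 1) → C.T) → C(Dn k, C.T)
  vert : ∀ k y i, f k y (stdSimplex.vertex i) = y i
  fc : ∀ k y i, (f (k + 1) y).comp (face i) = f k fun j => y (i.succAbove j)
  eqv : ∀ k (g : C.Γ) y t, f k (fun i => g • y i) t = g • f k y t
  small : ∀ k x₀, ∀ U ∈ 𝓝 x₀, ∃ W ∈ 𝓝 x₀, ∀ y, (∀ i, y i ∈ W) → ∀ t, f k y t ∈ U


/-- a twisted cochain, closed near the diagonal, not locally exact -/
structure LCls {S : Type} [TopologicalSpace S] (C : Cov S) (n : ℕ) where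
  χ : C.Γ →* ℤˣ
  a : (Fin (n + 1) → C.T) → ℝ
  tw : Tw χ a
  coc : ∀ x₀, ∃ W ∈ 𝓝 x₀, ∀ y : Fin (n + 2) → C.T, (∀ i, y i ∈ W) → cob a y = 0
  nle : ¬ LE χ a


/-- Jacobian determinant of `n` functions -/
def jd {n : ℕ} (g : Fin n → Eu n → ℝ) (u : Eu n) : ℝ :=
  (Matrix.of fun i j => fderiv ℝ (g i) u (EuclideanSpace.single j 1)).det

/-- **Stokes** -/
def StStmt : Prop := ∀ (n : ℕ) (Ω K : Set (Eu n)) (g : Fin n → Eu n → ℝ) (κ : Eu n → ℝ) (j : Fin n),
  IsOpen Ω → IsCompact K → K ⊆ Ω → (∀ i, ContDiffOn ℝ ∞ (g i) Ω) →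
  (∀ u ∈ K, ∀ᶠ v in 𝓝 u, κ v = κ u) →
  (∀ u ∈ Ω, u ∉ K → g j =ᶠ[𝓝 u] 0 ∨ ∃ i, i ≠ j ∧ fderiv ℝ (g i) u = 0) →
  ∫ u in Ω, κ u * jd g u = 0

/-- **degree one** -/
def DegStmt : Prop := ∀ (n : ℕ) (u₀ : Eu n) (δ R : ℝ) (g : Fin n → Eu n → ℝ), 0 < δ →
  (n + 1) * δ ≤ R → (∀ i, ContDiffOn ℝ ∞ (g i) (Metric.ball u₀ R)) →
  (∀ i, ∀ u ∈ Metric.ball u₀ R, (δ < u i - u₀ i → g i u = 1) ∧ (u i - u₀ i < -δ → g i u = 0)) →
  ∫ u in Metric.ball u₀ R, jd g u ≠ 0

section Mfd

variable (n : ℕ) {S : Type} [TopologicalSpace S] [ChartedSpace (Eu n) S] (C : Cov S)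

/-- the preferred chart -/
abbrev ch (s : S) : OpenPartialHomeomorph S (Eu n) := chartAt (Eu n) s

/-- smooth in all preferred charts -/
def SmS (f : S → ℝ) : Prop := ∀ s, ContDiffOn ℝ ∞ (f ∘ (ch n s).symm) (ch n s).target

/-- orientation of the covering: `ε x s` is the sign of the chart at `s` at the point `x` -/
structure Ori where
  χ : C.Γ →* ℤˣ
  ε : C.T → S → ℝ
  sq : ∀ x s, ε x s * ε x s = 1
  tw : ∀ (g : C.Γ) x s, C.p x ∈ (ch n s).source → ε (g • x) s = sg χ g * ε x s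
  lc : ∀ x s, C.p x ∈ (ch n s).source → ∀ᶠ x' in 𝓝 x, ε x' s = ε x s
  tr : ∀ x s s', C.p x ∈ (ch n s).source → C.p x ∈ (ch n s').source →
    ε x s * |(fderiv ℝ (ch n s' ∘ (ch n s).symm) (ch n s (C.p x))).det|
      = ε x s' * (fderiv ℝ (ch n s' ∘ (ch n s).symm) (ch n s (C.p x))).det

/-- a finite smooth partition of unity with centres `m a`; `z a x` is the lift of `m a` near `x` -/
structure Net where
  ι : Type
  [fin : Fintype ι]
  ρ : ι → S → ℝ
  cont : ∀ a, Continuous (ρ a)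
  sm : ∀ a, SmS n (ρ a)
  sum : ∀ s, ∑ a, ρ a s = 1
  m : ι → S
  sub : ∀ a, tsupport (ρ a) ⊆ (ch n (m a)).source
  z : ι → C.T → C.T
  p_z : ∀ a x, C.p (z a x) = m a
  eqv : ∀ a (g : C.Γ) x, z a (g • x) = g • z a x
  lc : ∀ a x, C.p x ∈ tsupport (ρ a) → ∀ᶠ x' in 𝓝 x, z a x' = z a x

attribute [instance] Net.fin

variable {n C}

/-- the net is finer than the neighbourhoods `V` -/
def Net.Fine (N : Net n C) (V : C.T → Set C.T) : Prop := ∀ x, ∃ (g : C.Γ) (x₀ : C.T),
  g • x ∈ V x₀ ∧ ∀ a, C.p x ∈ tsupport (N.ρ a) → g • N.z a x ∈ V x₀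

/-- a set theoretic section -/
def sec (C : Cov S) (s : S) : C.T := (C.qc.surjective s).choose

theorem p_sec (C : Cov S) (s : S) : C.p (sec C s) = s := (C.qc.surjective s).choose_spec

/-- the density of `k dg_1 ∧ … ∧ dg_n` in the chart at `s` -/
def Ori.loc (O : Ori n C) (s : S) (k : S → ℝ) (g : Fin n → S → ℝ) (u : Eu n) : ℝ :=
  O.ε (sec C ((ch n s).symm u)) s * k ((ch n s).symm u) * jd (fun i => g i ∘ (ch n s).symm) u

/-- its integral -/
def Ori.int (O : Ori n C) (s : S) (k : S → ℝ) (g : Fin n → S → ℝ) : ℝ :=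
  ∫ u in (ch n s).target, O.loc s k g u

/-- the Whitney pairing -/
def pair (O : Ori n C) (N : Net n C) (f : (Fin (n + 1) → C.T) → ℝ) : ℝ :=
  ∑ a : Fin (n + 1) → N.ι, O.int (N.m (a 0))
    (fun t => f (fun i => N.z (a i) (sec C t)) * N.ρ (a 0) t) fun i => N.ρ (a i.succ)

end Mfd

def OriStmt : Prop := ∀ (n : ℕ) (S : Type) [TopologicalSpace S] [ChartedSpace (Eu n) S]
  [IsManifold (𝓡 n) ∞ S] (C : Cov S), Nonempty (Ori n C)

def NetStmt : Prop := ∀ (n : ℕ) (S : Type) [TopologicalSpace S] [T2Space S] [CompactSpace S]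
  [ChartedSpace (Eu n) S] [IsManifold (𝓡 n) ∞ S] (C : Cov S) (V : C.T → Set C.T),
  (∀ x, V x ∈ 𝓝 x) → ∃ N : Net n C, N.Fine V

/-- change of chart -/
def CVStmt : Prop := ∀ (n : ℕ) (S : Type) [TopologicalSpace S] [ChartedSpace (Eu n) S]
  [IsManifold (𝓡 n) ∞ S] (C : Cov S) (O : Ori n C) (s s' : S) (k : S → ℝ) (g : Fin n → S → ℝ),
  (∀ i, SmS n (g i)) →
  (∀ t ∈ (ch n s).source, t ∉ (ch n s').source → O.loc s k g (ch n s t) = 0) →
  (∀ t ∈ (ch n s').source, t ∉ (ch n s).source → O.loc s' k g (ch n s' t) = 0) →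
  O.int s k g = O.int s' k g

/-- integrability, and local constancy of the coefficient -/
def IntStmt : Prop := ∀ (n : ℕ) (S : Type) [TopologicalSpace S] [ChartedSpace (Eu n) S]
  (C : Cov S) (O : Ori n C) (s : S) (κ : C.T → ℝ) (K : Set S),
  (∀ (γ : C.Γ) x, κ (γ • x) = sg O.χ γ * κ x) → IsCompact K → K ⊆ (ch n s).source →
  (∀ x, C.p x ∈ K → ∀ᶠ x' in 𝓝 x, κ x' = κ x) →
  (∀ t ∈ K, ∀ᶠ v in 𝓝 (ch n s t), O.ε (sec C ((ch n s).symm v)) s * κ (sec C ((ch n s).symm v))
    = O.ε (sec C t) s * κ (sec C t)) ∧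
  ∀ (w : S → ℝ) (g : Fin n → S → ℝ), Continuous w → (∀ i, SmS n (g i)) →
    (∀ t ∈ (ch n s).source, t ∉ K → O.loc s (fun t => κ (sec C t) * w t) g (ch n s t) = 0) →
    IntegrableOn (O.loc s (fun t => κ (sec C t) * w t) g) (ch n s).target

/-- the pairing kills local coboundaries -/
def ZeroStmt : Prop := ∀ (n : ℕ) (S : Type) [TopologicalSpace S] [T2Space S] [CompactSpace S]
  [ChartedSpace (Eu n) S] [IsManifold (𝓡 n) ∞ S] (C : Cov S) (O : Ori n C) (N : Net n C)
  (f : (Fin (n + 1) → C.T) → ℝ) (γ : (Fin n → C.T) → ℝ), 1 ≤ n → Tw O.χ γ →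
  (∀ x (a : Fin (n + 1) → N.ι), (∀ i, C.p x ∈ tsupport (N.ρ (a i))) →
    f (fun i => N.z (a i) x) = cob γ fun i => N.z (a i) x) → pair O N f = 0

/-- the local class -/
def LocStmt : Prop := ∀ (n : ℕ) (S : Type) [TopologicalSpace S] [T2Space S] [CompactSpace S]
  [ChartedSpace (Eu n) S] [IsManifold (𝓡 n) ∞ S] (C : Cov S), 1 ≤ n → Nonempty (LCls C n)


end Crest.Agent.N222.As

end
end

-- ▼ part N222/As/Fill
section

/-!
# Row 222, `C.AsphStmt` (helper40): `FillStmt` and `PiStmt` from `C/Simp`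
-/

set_option autoImplicit false

namespace Crest.Agent.N222.As

open Crest.Agent.N222.C



/-- shortcut through `C.cls_of_loc` (no `FilStmt`, `GlobStmt`) -/
theorem asph_of_loc (h : LocStmt) : AsphStmt := fun n S _ _ _ _ _ C hn hπ =>
  let ⟨L⟩ := h n S C hn
  cls_of_loc (n := n) C (C.wc hπ) L.tw L.coc L.nle

end Crest.Agent.N222.As
end

-- ▼ part N222/As/Net
section

/-!
# Row 222, `C.AsphStmt`: existence of fine nets
-/

set_option autoImplicit false
open Set Filter Topology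
open scoped ContDiff Manifold

noncomputable section

namespace Crest.Agent.N222.As

open Crest.Agent.N222.C

namespace Nt

variable {S : Type} [TopologicalSpace S] (C : Cov S)

/-- star refinement -/
theorem exists_star [CompactSpace S] [T2Space S] (U : S → Set S) (hU : ∀ s, U s ∈ 𝓝 s) :
    ∃ W : S → Set S, (∀ s, W s ∈ 𝓝 s) ∧ ∀ t, ∃ y, ∀ s, t ∈ W s → W s ⊆ U y := by
  let _ : UniformSpace S := uniformSpaceOfCompactR1
  obtain ⟨V, hV, h⟩ := lebesgue_number_lemma_nhds (U := U) isCompact_univ fun s _ => hU s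
  obtain ⟨W, hW, hs, hc⟩ := comp_symm_of_uniformity hV
  refine ⟨fun s => UniformSpace.ball s W, fun s => UniformSpace.ball_mem_nhds s hW, fun t => ?_⟩
  obtain ⟨y, hy⟩ := h t (mem_univ t)
  exact ⟨y, fun s h1 u h2 => hy (hc ⟨s, hs h1, h2⟩)⟩

/-- the translates of `U` are disjoint -/
def Dj (U : Set C.T) : Prop := ∀ (g : C.Γ) x, x ∈ U → g • x ∈ U → g = 1

theorem exists_dj (x : C.T) {V : Set C.T} (hV : V ∈ 𝓝 x) :
    ∃ U ⊆ V, IsOpen U ∧ x ∈ U ∧ Dj C U := by
  obtain ⟨W, hW, h⟩ := C.qc.disjoint x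
  obtain ⟨U, h1, h2, h3⟩ := mem_nhds_iff.1 (inter_mem hV hW)
  exact ⟨U, fun y hy => (h1 hy).1, h2, h3, fun g y a b =>
    h g ⟨g • y, ⟨y, (h1 a).2, rfl⟩, (h1 b).2⟩⟩

theorem exists_conn [LocallyConnectedSpace S] (x : C.T) {V : Set C.T} (hV : V ∈ 𝓝 x) :
    ∃ U ⊆ V, IsOpen U ∧ x ∈ U ∧ IsPreconnected U := by
  obtain ⟨e, hx, -⟩ := C.loc x
  have h1 : e.target ∩ e.symm ⁻¹' V ∈ 𝓝 (e x) :=
    inter_mem (e.open_target.mem_nhds (e.map_source hx))
      ((e.continuousAt_symm (e.map_source hx)).preimage_mem_nhds (by rwa [e.left_inv hx]))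
  obtain ⟨K, hK, ho, hm, hc⟩ := locallyConnectedSpace_iff_subsets_isOpen_isConnected.1 ‹_› _ _ h1
  exact ⟨e.symm '' K, by rintro _ ⟨y, hy, rfl⟩; exact (hK hy).2,
    e.symm.isOpen_image_of_subset_source ho fun y hy => (hK hy).1, ⟨e x, hm, e.left_inv hx⟩,
    hc.2.image _ (e.continuousOn_symm.mono fun y hy => (hK hy).1)⟩

theorem exists_coc (U : Set C.T) : ∃ c : C.T → C.Γ, (∀ (g : C.Γ) x, c (g • x) = g * c x) ∧
    ∀ x, C.p x ∈ C.p '' U → (c x)⁻¹ • x ∈ U := by
  have h : ∀ s, ∃ y, C.p y = s ∧ (s ∈ C.p '' U → y ∈ U) := fun s => by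
    by_cases hs : s ∈ C.p '' U
    · obtain ⟨y, hy, e⟩ := hs
      exact ⟨y, e, fun _ => hy⟩
    · exact ⟨sec C s, p_sec C s, fun h => absurd h hs⟩
  choose σ h1 h2 using h
  choose c hc using fun x => C.exists_smul (h1 (C.p x)).symm
  refine ⟨c, fun g x => ?_, fun x hx => ?_⟩
  · have e := hc (g • x)
    rw [C.p_smul] at e
    refine (inv_mul_eq_one.1 (C.free' (x := σ (C.p x)) ?_))
    rw [mul_smul, mul_smul, hc, inv_smul_eq_iff, e]
  · rw [inv_smul_eq_iff.2 (hc x).symm]
    exact h2 _ hx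

theorem coc_lc {U : Set C.T} (ho : IsOpen U) (hd : Dj C U) {c : C.T → C.Γ}
    (hc : ∀ x, C.p x ∈ C.p '' U → (c x)⁻¹ • x ∈ U) {x : C.T} (hx : C.p x ∈ C.p '' U) :
    ∀ᶠ x' in 𝓝 x, c x' = c x := by
  filter_upwards [(continuous_const_smul (c x)⁻¹).continuousAt.preimage_mem_nhds
    (ho.mem_nhds (hc x hx))] with y hy
  refine (inv_mul_eq_one.1 (hd _ _ (hc y ⟨_, hy, C.p_smul _ _⟩) ?_)).symm
  rwa [mul_smul, smul_inv_smul]

theorem subset_of_dj {V A : Set C.T} (ho : IsOpen V) (hd : Dj C V) (hA : IsPreconnected A)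
    (h : ∀ x ∈ A, C.p x ∈ C.p '' V) (hn : (A ∩ V).Nonempty) : A ⊆ V := by
  refine hA.subset_left_of_subset_union (v := ⋃ g : C.Γ, ⋃ _ : g ≠ 1, (g • ·) ⁻¹' V) ho
    (isOpen_iUnion fun g => isOpen_iUnion fun _ => ho.preimage (continuous_const_smul g))
    (Set.disjoint_left.2 fun x h1 h2 => ?_) (fun x hx => ?_) hn
  · obtain ⟨g, hg, h3⟩ := mem_iUnion₂.1 h2
    exact hg (hd g x h1 h3)
  · obtain ⟨y, hy, e⟩ := h x hx
    obtain ⟨g, rfl⟩ := C.exists_smul e
    by_cases hg : g = 1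
    · exact Or.inl (by simpa [hg] using hy)
    · exact Or.inr (mem_iUnion₂.2 ⟨g, hg, hy⟩)

end Nt

open Nt in
theorem net : NetStmt := by
  intro n S _ _ _ _ _ C V hV
  have : LocallyConnectedSpace S := ChartedSpace.locallyConnectedSpace (Eu n) S
  choose V' v1 v2 v3 v4 using fun x => exists_dj C x (hV x)
  have hop := C.loc.isOpenMap
  obtain ⟨W, hW, hst⟩ := exists_star (fun s => C.p '' V' (sec C s)) fun s =>
    (hop _ (v2 _)).mem_nhds ⟨_, v3 _, p_sec C s⟩
  have key : ∀ s, ∃ U : Set C.T, IsOpen U ∧ sec C s ∈ U ∧ IsPreconnected U ∧ Dj C U ∧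
      C.p '' U ⊆ (ch n s).source ∩ W s := fun s => by
    obtain ⟨A, a1, a2, a3, a4⟩ := exists_dj C (sec C s) (V := C.p ⁻¹' ((ch n s).source ∩ W s))
      (C.cov.continuous.continuousAt.preimage_mem_nhds (by
        rw [p_sec]; exact inter_mem (chart_source_mem_nhds _ s) (hW s)))
    obtain ⟨U, b1, b2, b3, b4⟩ := exists_conn C _ (a2.mem_nhds a3)
    exact ⟨U, b2, b3, b4, fun g x h1 h2 => a4 g x (b1 h1) (b1 h2),
      image_subset_iff.2 (b1.trans a1)⟩
  choose U u1 u2 u3 u4 u5 using key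
  obtain ⟨t, -, ht⟩ := isCompact_univ.elim_nhds_subcover (fun s => C.p '' U s) fun s _ =>
    (hop _ (u1 s)).mem_nhds ⟨_, u2 s, p_sec C s⟩
  obtain ⟨ρ, hρ⟩ := SmoothPartitionOfUnity.exists_isSubordinate (𝓡 n) isClosed_univ
    (fun a : t => C.p '' U a) (fun a => hop _ (u1 a)) fun s hs => by
      obtain ⟨a, ha, h⟩ := mem_iUnion₂.1 (ht hs)
      exact mem_iUnion.2 ⟨⟨a, ha⟩, h⟩
  choose c c1 c2 using fun s => exists_coc C (U s)
  refine ⟨{ ι := t
            ρ := fun a => ρ a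
            cont := fun a => (ρ a).contMDiff.continuous
            sm := fun a s => contMDiffOn_iff_contDiffOn.1
              ((ρ a).contMDiff.comp_contMDiffOn contMDiffOn_chart_symm)
            sum := fun s => by rw [← finsum_eq_sum_of_fintype]; exact ρ.sum_eq_one (mem_univ s)
            m := fun a => a
            sub := fun a => (hρ a).trans ((u5 a).trans inter_subset_left)
            z := fun a x => c a x • sec C a
            p_z := fun a x => by rw [C.p_smul, p_sec]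
            eqv := fun a g x => by rw [c1, mul_smul]
            lc := fun a x hx => (coc_lc C (u1 a) (u4 a) (c2 a) (hρ a hx)).mono fun y hy => by
              rw [hy] }, fun x => ?_⟩
  obtain ⟨y, hy⟩ := hst (C.p x)
  obtain ⟨a₀, -, h₀⟩ := mem_iUnion₂.1 (ht (mem_univ (C.p x)))
  obtain ⟨w, hw, e⟩ := hy a₀ (u5 a₀ h₀).2 (u5 a₀ h₀).2
  obtain ⟨g, rfl⟩ := C.exists_smul e
  refine ⟨g, sec C y, v1 _ hw, fun a ha => v1 _ ?_⟩
  have h1 := hρ a ha
  refine subset_of_dj C (v2 _) (v4 _) ((u3 a).image (fun u => g • c a x • u) (by fun_prop))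
    ?_ ⟨_, ⟨_, c2 a x h1, rfl⟩, by simpa only [smul_inv_smul] using hw⟩ ⟨_, u2 a, rfl⟩
  rintro _ ⟨u, hu, rfl⟩
  rw [C.p_smul, C.p_smul]
  exact hy a (u5 a h1).2 (u5 a ⟨u, hu, rfl⟩).2

end Crest.Agent.N222.As

end
end

-- ▼ part N222/As/Ori
section

/-!
# Row 222, `As.ori` (helper61): the universal covering of a manifold is oriented
-/

set_option autoImplicit false
set_option maxHeartbeats 400000

open Set Filter Topology
open scoped ContDiff Manifold

noncomputable section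

namespace Crest.Agent.N222.As

open Crest.Agent.N222.C

namespace Ori1

theorem lpc {S : Type} [TopologicalSpace S] [LocallyPathConnectedSpace S] (C : Cov S) :
    LocallyPathConnectedSpace C.T := by
  let _ : ChartedSpace S C.T :=
    { atlas := univ
      chartAt := fun x => (C.loc x).choose
      mem_chart_source := fun x => (C.loc x).choose_spec.1
      chart_mem_atlas := fun _ => trivial }
  exact ChartedSpace.locallyPathConnectedSpace S C.T

/-- a locally constant sign cocycle trivialises on the simply connected covering -/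
theorem exists_eps {S : Type} [TopologicalSpace S] [LocallyPathConnectedSpace S] (C : Cov S)
    {B : S → Set S} (hB : ∀ s, IsOpen (B s)) (hB' : ∀ s, s ∈ B s) {τ : S → S → S → ℤˣ}
    (h1 : ∀ s, ∀ t ∈ B s, τ s s t = 1) (h2 : ∀ s s', ContinuousOn (τ s s') (B s ∩ B s'))
    (h3 : ∀ s s' s'', ∀ t ∈ B s ∩ B s' ∩ B s'', τ s' s'' t * τ s s' t = τ s s'' t) :
    ∃ (χ : C.Γ →* ℤˣ) (e : C.T → S → ℤˣ),
      (∀ (g : C.Γ) x s, C.p x ∈ B s → e (g • x) s = χ g * e x s) ∧
      (∀ x s, C.p x ∈ B s → ∀ᶠ x' in 𝓝 x, e x' s = e x s) ∧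
      ∀ x s s', C.p x ∈ B s → C.p x ∈ B s' → e x s' = τ s s' (C.p x) * e x s := by
  let Z : FiberBundleCore S S ℤˣ :=
    { baseSet := B
      isOpen_baseSet := hB
      indexAt := id
      mem_baseSet_at := hB'
      coordChange := fun s s' t u => τ s s' t * u
      coordChange_self := fun s t ht u => by rw [h1 s t ht, one_mul]
      continuousOn_coordChange := fun s s' =>
        ((h2 s s').comp continuous_fst.continuousOn fun p hp => hp.1).mul
          continuous_snd.continuousOn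
      coordChange_comp := fun s s' s'' t ht u => by rw [← mul_assoc, h3 s s' s'' t ht] }
  have cov : IsCoveringMap Z.proj := FiberBundle.isCoveringMap
  have := C.sc
  have := lpc C
  obtain ⟨x₀⟩ : Nonempty C.T := inferInstance
  obtain ⟨L, ⟨-, hL⟩, -⟩ := cov.existsUnique_continuousMap_lifts ⟨C.p, C.cov.continuous⟩ x₀
    ⟨C.p x₀, (1 : ℤˣ)⟩ rfl
  have hL' : ∀ x, (L x).1 = C.p x := congrFun hL
  obtain ⟨u, hu⟩ : ∃ u : C.T → ℤˣ, ∀ x s, (Z.localTriv s (L x)).2 = τ (C.p x) s (C.p x) * u x :=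
    ⟨fun x => (L x).2, fun x s => by rw [← hL']; rfl⟩
  have lc : ∀ x s, C.p x ∈ B s →
      ∀ᶠ x' in 𝓝 x, τ (C.p x') s (C.p x') * u x' = τ (C.p x) s (C.p x) * u x := fun x s hx => by
    have h : ContinuousAt (fun x => (Z.localTriv s (L x)).2) x :=
      continuousAt_snd.comp (((Z.localTriv s).toOpenPartialHomeomorph.continuousAt
        (show (L x).1 ∈ B s by rwa [hL'])).comp L.continuous.continuousAt)
    simp only [hu] at h
    exact h.eventually ((isOpen_discrete {_}).mem_nhds rfl)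
  have sq : ∀ (g : C.Γ) x s, τ (C.p (g • x)) s (C.p (g • x)) * u (g • x) *
      (τ (C.p x) s (C.p x) * u x) = u (g • x) * u x := fun g x s => by
    rw [C.p_smul, mul_mul_mul_comm, Int.units_mul_self, one_mul]
  have cst : ∀ (g : C.Γ) x, u (g • x) * u x = u (g • x₀) * u x₀ := fun g x => by
    refine IsLocallyConstant.apply_eq_of_preconnectedSpace
      (f := fun x => u (g • x) * u x) ((IsLocallyConstant.iff_eventually_eq _).2 fun x => ?_) x x₀
    filter_upwards [lc x _ (hB' _), (continuous_const_smul g).continuousAt.eventually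
      (lc (g • x) (C.p x) (by rw [C.p_smul]; exact hB' _))] with y h h'
    rw [← sq g y (C.p x), ← sq g x (C.p x), h, h']
  refine ⟨⟨⟨fun g => u (g • x₀) * u x₀, ?_⟩, fun g h => ?_⟩,
    fun x s => τ (C.p x) s (C.p x) * u x, fun g x s _ => ?_, lc, fun x s s' h h' => ?_⟩
  · rw [one_smul, Int.units_mul_self]
  · change u ((g * h) • x₀) * u x₀ = u (g • x₀) * u x₀ * (u (h • x₀) * u x₀)
    rw [← cst g (h • x₀), mul_smul, mul_assoc, ← mul_assoc (u (h • x₀)), Int.units_mul_self,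
      one_mul]
  · change τ (C.p (g • x)) s (C.p (g • x)) * u (g • x) =
      u (g • x₀) * u x₀ * (τ (C.p x) s (C.p x) * u x)
    rw [← cst g x, C.p_smul, mul_left_comm, mul_assoc, Int.units_mul_self, mul_one]
  · rw [← mul_assoc, h3 _ _ _ _ ⟨⟨hB' _, h⟩, h'⟩]

/-- the sign -/
def sn (a : ℝ) : ℤˣ := if 0 < a then 1 else -1

theorem sn_mul {a b : ℝ} (ha : a ≠ 0) (hb : b ≠ 0) : sn (a * b) = sn a * sn b := by
  rcases ha.lt_or_gt with ha | ha <;> rcases hb.lt_or_gt with hb | hb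
  · simp [sn, ha.not_gt, hb.not_gt, mul_pos_of_neg_of_neg ha hb]
  · simp [sn, ha.not_gt, hb]
  · simp [sn, ha, hb.not_gt]
  · simp [sn, ha, hb]

theorem abs_eq_sn (a : ℝ) : |a| = ((sn a : ℤ) : ℝ) * a := by
  by_cases h : 0 < a
  · simp [sn, h, abs_of_pos h]
  · simp [sn, h, abs_of_nonpos (not_lt.1 h)]

theorem continuousAt_sn {a : ℝ} (ha : a ≠ 0) : ContinuousAt sn a := by
  rcases ha.lt_or_gt with ha | ha
  · refine (continuousAt_const (y := -1)).congr ((gt_mem_nhds ha).mono fun b hb => ?_)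
    exact (if_neg (not_lt.2 (le_of_lt hb))).symm
  · exact (continuousAt_const (y := 1)).congr ((lt_mem_nhds ha).mono fun b hb => (if_pos hb).symm)

variable (n : ℕ) {S : Type} [TopologicalSpace S] [ChartedSpace (Eu n) S] [IsManifold (𝓡 n) 1 S]

/-- Jacobian of the change of chart -/
def dt (s s' t : S) : ℝ := (tangentCoordChange (𝓡 n) s s' t).det

theorem dt_eq (s s' t : S) :
    dt n s s' t = (fderiv ℝ (ch n s' ∘ (ch n s).symm) (ch n s t)).det := by
  simp only [dt, tangentCoordChange_def, mfld_simps, fderivWithin_univ]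

variable {n}

theorem dt_self {s t : S} (h : t ∈ (ch n s).source) : dt n s s t = 1 := by
  have : tangentCoordChange (𝓡 n) s s t = 1 :=
    ContinuousLinearMap.ext fun v => tangentCoordChange_self (by rwa [extChartAt_source])
  rw [dt, this]
  exact LinearMap.det_id

theorem dt_mul {s s' s'' t : S} (h : t ∈ (ch n s).source ∩ (ch n s').source ∩ (ch n s'').source) :
    dt n s' s'' t * dt n s s' t = dt n s s'' t := by
  have : tangentCoordChange (𝓡 n) s s'' t =
      tangentCoordChange (𝓡 n) s' s'' t ∘L tangentCoordChange (𝓡 n) s s' t :=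
    ContinuousLinearMap.ext fun v =>
      (tangentCoordChange_comp (by simpa only [extChartAt_source] using h)).symm
  rw [dt, dt, dt, this]
  exact (LinearMap.det_comp _ _).symm

theorem dt_ne {s s' t : S} (h : t ∈ (ch n s).source ∩ (ch n s').source) : dt n s s' t ≠ 0 :=
  right_ne_zero_of_mul (a := dt n s' s t) (by
    rw [dt_mul ⟨h, h.1⟩, dt_self h.1]
    exact one_ne_zero)

theorem continuousOn_dt (s s' : S) :
    ContinuousOn (dt n s s') ((ch n s).source ∩ (ch n s').source) :=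
  ContinuousLinearMap.continuous_det.comp_continuousOn
    (by simpa only [extChartAt_source] using continuousOn_tangentCoordChange (I := 𝓡 n) s s')

end Ori1

open Ori1 in
theorem ori : OriStmt := by
  intro n S _ _ _ C
  have := ChartedSpace.locallyPathConnectedSpace (Eu n) S
  obtain ⟨χ, e, h1, h2, h3⟩ := exists_eps C (B := fun s => (ch n s).source)
    (fun s => (ch n s).open_source) (fun s => mem_chart_source _ s)
    (τ := fun s s' t => sn (dt n s s' t)) (fun s t ht => by rw [dt_self ht]; exact if_pos one_pos)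
    (fun s s' t ht => (continuousAt_sn (dt_ne ht)).comp_continuousWithinAt
      (continuousOn_dt s s' t ht))
    fun s s' s'' t ht => by rw [← sn_mul (dt_ne ⟨ht.1.2, ht.2⟩) (dt_ne ht.1), dt_mul ht]
  refine ⟨⟨χ, fun x s => ((e x s : ℤ) : ℝ), fun x s => ?_, fun g x s hx => ?_,
    fun x s hx => (h2 x s hx).mono fun y hy => by rw [hy], fun x s s' hx hx' => ?_⟩⟩
  · rw [← Int.cast_mul, ← Units.val_mul, Int.units_mul_self, Units.val_one, Int.cast_one]
  · rw [h1 g x s hx, Units.val_mul, Int.cast_mul, sg]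
  · rw [← dt_eq, h3 x s s' hx hx', abs_eq_sn, Units.val_mul, Int.cast_mul]
    ring

end Crest.Agent.N222.As

end
end

-- ▼ part N222/As/CV
section

/-!
# Row 222, `AsphStmt`: change of chart and integrability (helper48)
-/

set_option autoImplicit false
open Set Filter Topology MeasureTheory
open scoped ContDiff Manifold

noncomputable section

namespace Crest.Agent.N222.As

open Crest.Agent.N222.C

variable {n : ℕ}

theorem continuousAt_jd {g : Fin n → Eu n → ℝ} {u : Eu n} (hg : ∀ i, ContDiffAt ℝ ∞ (g i) u) :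
    ContinuousAt (jd g) u := by
  have h : ContinuousAt (fun v => (Matrix.of fun i j =>
      fderiv ℝ (g i) v (EuclideanSpace.single j 1) : Matrix (Fin n) (Fin n) ℝ)) u :=
    continuousAt_pi.2 fun i => continuousAt_pi.2 fun j =>
      (((hg i).fderiv_right (m := ∞) (by simp)).continuousAt).clm_apply continuousAt_const
  exact (Continuous.matrix_det continuous_id).continuousAt.comp h

theorem jd_eq_zero {g : Fin n → Eu n → ℝ} {u : Eu n} {i : Fin n} (h : fderiv ℝ (g i) u = 0) :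
    jd g u = 0 :=
  Matrix.det_eq_zero_of_row_eq_zero i fun j => by simp [h]

theorem jd_congr {g g' : Fin n → Eu n → ℝ} {u : Eu n} (h : ∀ i, g i =ᶠ[𝓝 u] g' i) :
    jd g u = jd g' u := by
  have h1 : ∀ i, fderiv ℝ (g i) u = fderiv ℝ (g' i) u := fun i => (h i).fderiv_eq
  simp only [jd, h1]

/-- chain rule -/
theorem jd_comp {g : Fin n → Eu n → ℝ} {ψ : Eu n → Eu n} {u : Eu n}
    (hg : ∀ i, DifferentiableAt ℝ (g i) (ψ u)) (hψ : DifferentiableAt ℝ ψ u) :
    jd (fun i => g i ∘ ψ) u = jd g (ψ u) * (fderiv ℝ ψ u).det := by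
  rw [jd, jd, ContinuousLinearMap.det,
    ← LinearMap.det_toMatrix (EuclideanSpace.basisFun (Fin n) ℝ).toBasis, ← Matrix.det_mul]
  congr 1
  ext i j
  rw [Matrix.of_apply, fderiv_comp u (hg i) hψ, ContinuousLinearMap.comp_apply, Matrix.mul_apply]
  conv_lhs => rw [← (EuclideanSpace.basisFun (Fin n) ℝ).sum_repr
    (fderiv ℝ ψ u (EuclideanSpace.single j 1)), map_sum]
  simp [LinearMap.toMatrix_apply, mul_comm]

theorem cv : CVStmt := by
  intro n S _ _ _ C O s s' k g hg h1 h2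
  set c := ch n s with hc
  set c' := ch n s' with hc'
  set ψ := c.symm.trans c' with hψ
  have hsm : ContDiffOn ℝ ∞ (c' ∘ c.symm) ψ.source := by
    have h : ContMDiffOn (𝓡 n) (𝓡 n) ∞ (c' ∘ c.symm) ψ.source :=
      (contMDiffOn_chart (x := s')).comp ((contMDiffOn_chart_symm (x := s)).mono fun _ hu => hu.1)
        fun _ hu => hu.2
    exact h.contDiffOn
  have hd : ∀ u ∈ ψ.source, DifferentiableAt ℝ (c' ∘ c.symm) u := fun u hu =>
    (hsm.contDiffAt (ψ.open_source.mem_nhds hu)).differentiableAt (by simp)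
  have e1 : O.int s k g = ∫ u in ψ.source, O.loc s k g u := by
    refine setIntegral_eq_of_subset_of_forall_diff_eq_zero c.open_target.measurableSet
      (fun _ hu => hu.1) fun u hu => ?_
    have h := h1 (c.symm u) (c.map_target hu.1) fun h => hu.2 ⟨hu.1, h⟩
    rwa [c.right_inv hu.1] at h
  have e2 : O.int s' k g = ∫ u in ψ.target, O.loc s' k g u := by
    refine setIntegral_eq_of_subset_of_forall_diff_eq_zero c'.open_target.measurableSet
      (fun _ hu => hu.1) fun u hu => ?_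
    have h := h2 (c'.symm u) (c'.map_target hu.1) fun h => hu.2 ⟨hu.1, h⟩
    rwa [c'.right_inv hu.1] at h
  rw [e1, e2, ← ψ.image_source_eq_target]
  have h3 := integral_image_eq_integral_abs_det_fderiv_smul volume ψ.open_source.measurableSet
    (f := c' ∘ c.symm) (f' := fderiv ℝ (c' ∘ c.symm))
    (fun u hu => (hd u hu).hasFDerivAt.hasFDerivWithinAt) ψ.injOn (O.loc s' k g)
  refine Eq.trans ?_ h3.symm
  refine setIntegral_congr_fun ψ.open_source.measurableSet fun u hu => ?_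
  have hu1 : u ∈ c.target := hu.1
  have hu2 : c.symm u ∈ c'.source := hu.2
  have h4 : jd (fun i => g i ∘ c.symm) u =
      jd (fun i => g i ∘ c'.symm) ((c' ∘ c.symm) u) * (fderiv ℝ (c' ∘ c.symm) u).det := by
    rw [← jd_comp (fun i => ((hg i s').contDiffAt
      (c'.open_target.mem_nhds (c'.map_source hu2))).differentiableAt (by simp)) (hd u hu)]
    refine jd_congr fun i => ?_
    filter_upwards [ψ.open_source.mem_nhds hu] with v hv
    have hv2 : c.symm v ∈ c'.source := hv.2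
    exact congrArg (g i) (c'.left_inv hv2).symm
  have h5 := O.tr (sec C (c.symm u)) s s' (by rw [p_sec]; exact c.map_target hu1)
    (by rw [p_sec]; exact hu2)
  rw [p_sec, ← hc, ← hc', c.right_inv hu1] at h5
  have h6 := O.sq (sec C (c.symm u)) s
  have h7 := O.sq (sec C (c.symm u)) s'
  simp only [Ori.loc, smul_eq_mul, ← hc, ← hc', h4, Function.comp_apply, c'.left_inv hu2]
  generalize O.ε (sec C (c.symm u)) s = ε at *
  generalize O.ε (sec C (c.symm u)) s' = ε' at *
  generalize (fderiv ℝ (c' ∘ c.symm) u).det = D at *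
  have h8 : ε * D = ε' * |D| := by
    linear_combination (-(ε * ε')) * h5 + ε' * |D| * h6 - ε * D * h7
  linear_combination (k (c.symm u) * jd (fun i => g i ∘ c'.symm) (c' (c.symm u))) * h8

theorem intg : IntStmt := by
  intro n S _ _ C O s κ K hκ hK hKs hlc
  set c := ch n s with hc
  have h1 : ∀ t ∈ K, ∀ᶠ v in 𝓝 (c t), O.ε (sec C (c.symm v)) s * κ (sec C (c.symm v))
      = O.ε (sec C t) s * κ (sec C t) := by
    intro t ht
    have ht' : C.p (sec C t) ∈ K := by rwa [p_sec]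
    have hU := C.loc.isOpenMap.image_mem_nhds ((O.lc _ s (hKs ht')).and (hlc _ ht'))
    rw [p_sec] at hU
    have h2 : ∀ᶠ t' in 𝓝 t, O.ε (sec C t') s * κ (sec C t') = O.ε (sec C t) s * κ (sec C t) := by
      filter_upwards [hU, c.open_source.mem_nhds (hKs ht)] with t' ht1 ht2
      obtain ⟨x, hx, rfl⟩ := ht1
      obtain ⟨γ, hγ⟩ := C.exists_smul (p_sec C (C.p x))
      rw [← hγ, O.tw γ x s ht2, hκ, ← hx.1, ← hx.2]
      linear_combination (O.ε x s * κ x) * sg_mul_self O.χ γ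
    have h3 := c.continuousAt_symm (c.map_source (hKs ht))
    rw [ContinuousAt, c.left_inv (hKs ht)] at h3
    exact h3.eventually h2
  refine ⟨h1, fun w g hw hg h0 => ?_⟩
  have hK' : IsCompact (c '' K) := hK.image_of_continuousOn (c.continuousOn.mono hKs)
  refine IntegrableOn.of_forall_diff_eq_zero (s := c '' K)
    (ContinuousOn.integrableOn_compact hK' ?_) c.open_target.measurableSet fun u hu => ?_
  · rintro _ ⟨t, ht, rfl⟩
    have ht' := c.map_source (hKs ht)
    have h2 : ContinuousAt (fun v => O.ε (sec C t) s * κ (sec C t) * w (c.symm v) *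
        jd (fun i => g i ∘ c.symm) v) (c t) :=
      (continuousAt_const.mul (hw.continuousAt.comp (c.continuousAt_symm ht'))).mul
        (continuousAt_jd fun i => (hg i s).contDiffAt (c.open_target.mem_nhds ht'))
    refine (h2.congr ?_).continuousWithinAt
    filter_upwards [h1 t ht] with v hv
    rw [← hv, Ori.loc]
    ring
  · have h := h0 (c.symm u) (c.map_target hu.1) fun h => hu.2 ⟨_, h, c.right_inv hu.1⟩
    rwa [c.right_inv hu.1] at h

end Crest.Agent.N222.As

end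
end

-- ▼ part N222/As/Zero
section

/-!
# Row 222, `AsphStmt`: the Whitney pairing kills local coboundaries (helper48)
-/

set_option autoImplicit false
set_option linter.unusedSectionVars false
open Set Filter Topology MeasureTheory Function
open scoped ContDiff Manifold

noncomputable section

namespace Crest.Agent.N222.As

open Crest.Agent.N222.C

theorem sum_eq_zero_of_update {α ι : Type} [Fintype α] [DecidableEq α] [Fintype ι]
    (F : (α → ι) → ℝ) (i : α) (h : ∀ a, ∑ b, F (update a i b) = 0) : ∑ a, F a = 0 := by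
  classical
  have hi : Involutive fun p : (α → ι) × ι => (update p.1 i p.2, p.1 i) := fun p => by simp
  have h1 := Equiv.sum_comp hi.toPerm fun p : (α → ι) × ι => F p.1
  simp only [Involutive.coe_toPerm, Fintype.sum_prod_type, h, Finset.sum_const_zero,
    Finset.sum_const, nsmul_eq_mul, ← Finset.mul_sum, Finset.card_univ] at h1
  rcases mul_eq_zero.1 h1.symm with h2 | h2
  · have : IsEmpty ι := Fintype.card_eq_zero_iff.1 (Nat.cast_eq_zero.1 h2)
    have : IsEmpty (α → ι) := ⟨fun a => IsEmpty.false (a i)⟩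
    exact Fintype.sum_empty _
  · exact h2

/-- `jd` is additive in each function -/
theorem sum_jd_update {n : ℕ} {ι : Type} [Fintype ι] (g : Fin n → Eu n → ℝ) (i : Fin n)
    (r : ι → Eu n → ℝ) {u : Eu n} (h : ∑ b, fderiv ℝ (r b) u = 0) :
    ∑ b, jd (update g i (r b)) u = 0 := by
  set A : Matrix (Fin n) (Fin n) ℝ :=
    Matrix.of fun i j => fderiv ℝ (g i) u (EuclideanSpace.single j 1) with hA
  have h1 : ∀ b, jd (update g i (r b)) u = Matrix.detRowAlternating.toMultilinearMap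
      (update A i fun j => fderiv ℝ (r b) u (EuclideanSpace.single j 1)) := fun b => by
    refine congrArg Matrix.det ?_
    ext k j
    by_cases hk : k = i
    · subst hk; simp
    · simp [hk, hA]
  simp only [h1]
  rw [← MultilinearMap.map_update_sum]
  refine MultilinearMap.map_coord_zero _ i ?_
  funext j
  have := congrArg (fun T : Eu n →L[ℝ] ℝ => T (EuclideanSpace.single j 1)) h
  simpa using this

section

variable {n : ℕ} {S : Type} [TopologicalSpace S] [ChartedSpace (Eu n) S] {C : Cov S}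
  (O : Ori n C) (N : Net n C)

theorem comp_symm_zero {ρ : S → ℝ} {s : S} {u : Eu n} (hu : u ∈ (ch n s).target)
    (h : (ch n s).symm u ∉ tsupport ρ) : ρ ∘ (ch n s).symm =ᶠ[𝓝 u] 0 :=
  ((ch n s).continuousAt_symm hu).eventually (notMem_tsupport_iff_eventuallyEq.1 h)

theorem fderiv_comp_symm_zero {ρ : S → ℝ} {s : S} {u : Eu n} (hu : u ∈ (ch n s).target)
    (h : (ch n s).symm u ∉ tsupport ρ) : fderiv ℝ (ρ ∘ (ch n s).symm) u = 0 := by
  rw [(comp_symm_zero hu h).fderiv_eq]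
  exact fderiv_const_apply 0

/-- the density vanishes off the supports -/
theorem loc_eq_zero (a : Fin (n + 1) → N.ι) (k : S → ℝ) {s : S} {u : Eu n}
    (hu : u ∈ (ch n s).target) {i : Fin (n + 1)} (h : (ch n s).symm u ∉ tsupport (N.ρ (a i))) :
    O.loc s (fun t => k t * N.ρ (a 0) t) (fun i => N.ρ (a i.succ)) u = 0 := by
  rw [Ori.loc]
  induction i using Fin.cases with
  | zero => rw [image_eq_zero_of_notMem_tsupport h, mul_zero, mul_zero, zero_mul]
  | succ i => rw [jd_eq_zero (i := i) (fderiv_comp_symm_zero hu h), mul_zero]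

theorem loc_eq_zero' (a : Fin (n + 1) → N.ι) (k : S → ℝ) {s t : S}
    (ht : t ∈ (ch n s).source) {i : Fin (n + 1)} (h : t ∉ tsupport (N.ρ (a i))) :
    O.loc s (fun t => k t * N.ρ (a 0) t) (fun i => N.ρ (a i.succ)) (ch n s t) = 0 :=
  loc_eq_zero O N a k ((ch n s).map_source ht) (by rwa [(ch n s).left_inv ht])

theorem sum_fderiv_rho {s : S} {u : Eu n} (hu : u ∈ (ch n s).target) :
    ∑ b, fderiv ℝ (N.ρ b ∘ (ch n s).symm) u = 0 := by
  rw [← fderiv_fun_sum fun b _ => ((N.sm b s).contDiffAt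
    ((ch n s).open_target.mem_nhds hu)).differentiableAt (by simp)]
  simp only [comp_apply, N.sum]
  exact fderiv_const_apply 1

variable [CompactSpace S] {γ : (Fin n → C.T) → ℝ}

theorem tw_z (hγ : Tw O.χ γ) (c : Fin n → N.ι) (g : C.Γ) (x : C.T) :
    γ (fun j => N.z (c j) (g • x)) = sg O.χ g * γ fun j => N.z (c j) x := by
  simp only [N.eqv]
  exact hγ g _

theorem lc_z (γ : (Fin n → C.T) → ℝ) (c : Fin n → N.ι) {x : C.T}
    (hx : ∀ j, C.p x ∈ tsupport (N.ρ (c j))) :
    ∀ᶠ x' in 𝓝 x, γ (fun j => N.z (c j) x') = γ fun j => N.z (c j) x := by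
  filter_upwards [eventually_all.2 fun j => N.lc (c j) x (hx j)] with x' hx'
  simp only [hx']

/-- the pieces are integrable in the chart at any of the centres -/
theorem integrable_piece (hγ : Tw O.χ γ) (a : Fin (n + 1) → N.ι) (i l : Fin (n + 1)) :
    IntegrableOn (O.loc (N.m (a l)) (fun t => γ (fun j => N.z (a (i.succAbove j)) (sec C t)) *
      N.ρ (a 0) t) fun j => N.ρ (a j.succ)) (ch n (N.m (a l))).target := by
  refine (intg n S C O (N.m (a l)) (fun x => γ fun j => N.z (a (i.succAbove j)) x)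
    (⋂ j, tsupport (N.ρ (a j))) (tw_z O N hγ _)
    (isClosed_iInter fun _ => isClosed_tsupport _).isCompact
    ((iInter_subset _ l).trans (N.sub _))
    fun x hx => lc_z N γ _ fun j => mem_iInter.1 hx _).2 _ _ (N.cont _) (fun j => N.sm _)
    fun t ht h => ?_
  obtain ⟨j, hj⟩ := not_forall.1 fun h' => h (mem_iInter.2 h')
  exact loc_eq_zero' O N a _ ht hj

/-- the pieces of the pairing with a coboundary -/
def piece (γ : (Fin n → C.T) → ℝ) (i : Fin (n + 1)) (a : Fin (n + 1) → N.ι) : ℝ :=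
  O.int (N.m (a 0)) (fun t => γ (fun j => N.z (a (i.succAbove j)) (sec C t)) * N.ρ (a 0) t)
    fun j => N.ρ (a j.succ)

theorem sum_piece_succ (hγ : Tw O.χ γ) (i : Fin n) : ∑ a, piece O N γ i.succ a = 0 := by
  refine sum_eq_zero_of_update _ i.succ fun a => ?_
  have h0 : ∀ b, update a i.succ b 0 = a 0 := fun b => update_of_ne (Fin.succ_ne_zero i).symm _ _
  have h1 : ∀ b j, update a i.succ b (i.succ.succAbove j) = a (i.succ.succAbove j) := fun b j =>
    update_of_ne (Fin.succAbove_ne _ _) _ _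
  have hi := fun b => integrable_piece O N hγ (update a i.succ b) i.succ 0
  simp only [piece, Ori.int, h0, h1] at hi ⊢
  rw [← integral_finsetSum _ fun b _ => hi b]
  refine setIntegral_eq_zero_of_forall_eq_zero fun u hu => ?_
  have h2 : ∀ b, (fun j : Fin n => N.ρ (update a i.succ b j.succ) ∘ (ch n (N.m (a 0))).symm) =
      update (fun j : Fin n => N.ρ (a j.succ) ∘ (ch n (N.m (a 0))).symm) i
        (N.ρ b ∘ (ch n (N.m (a 0))).symm) := fun b => by
    funext j
    by_cases hj : j = i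
    · subst hj; simp
    · rw [update_of_ne hj, update_of_ne fun h => hj (Fin.succ_injective _ h)]
  simp only [Ori.loc, h2]
  rw [← Finset.mul_sum, sum_jd_update _ _ _ (sum_fderiv_rho N hu), mul_zero]

theorem sum_piece_zero [IsManifold (𝓡 n) ∞ S] (hS : StStmt) (hγ : Tw O.χ γ) (l : Fin n) :
    ∑ a, piece O N γ 0 a = 0 := by
  have h3 : ∀ a, piece O N γ 0 a = O.int (N.m (a l.succ))
      (fun t => γ (fun j => N.z (a (Fin.succAbove 0 j)) (sec C t)) * N.ρ (a 0) t)
        fun j => N.ρ (a j.succ) := fun a =>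
    cv n S C O _ _ _ _ (fun j => N.sm _)
      (fun t ht h => loc_eq_zero' O N a _ ht fun h' => h (N.sub _ h'))
      fun t ht h => loc_eq_zero' O N a _ ht fun h' => h (N.sub _ h')
  refine sum_eq_zero_of_update _ 0 fun a => ?_
  have h1 : ∀ b (j : Fin n), update a 0 b j.succ = a j.succ := fun b j =>
    update_of_ne (Fin.succ_ne_zero _) _ _
  have hi := fun b => integrable_piece O N hγ (update a 0 b) 0 l.succ
  simp only [h3, Ori.int, h1, Fin.succAbove_zero, update_self] at hi ⊢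
  rw [← integral_finsetSum _ fun b _ => hi b]
  set s := N.m (a l.succ) with hs
  have hK : IsCompact (⋂ j : Fin n, tsupport (N.ρ (a j.succ))) :=
    (isClosed_iInter fun _ => isClosed_tsupport _).isCompact
  have hKs : (⋂ j : Fin n, tsupport (N.ρ (a j.succ))) ⊆ (ch n s).source :=
    (iInter_subset _ l).trans (N.sub _)
  have h4 := (intg n S C O s (fun x => γ fun j => N.z (a j.succ) x) _ (tw_z O N hγ _) hK hKs
    fun x hx => lc_z N γ _ fun j => mem_iInter.1 hx _).1
  refine Eq.trans ?_ (hS n (ch n s).target (ch n s '' ⋂ j : Fin n, tsupport (N.ρ (a j.succ)))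
    (fun j => N.ρ (a j.succ) ∘ (ch n s).symm)
    (fun u => O.ε (sec C ((ch n s).symm u)) s * γ fun j => N.z (a j.succ) (sec C ((ch n s).symm u)))
    l (ch n s).open_target (hK.image_of_continuousOn ((ch n s).continuousOn.mono hKs))
    ?_ (fun j => N.sm _ s) ?_ fun u hu h => ?_)
  · refine setIntegral_congr_fun (ch n s).open_target.measurableSet fun u _ => ?_
    simp only [Ori.loc]
    rw [← Finset.sum_mul, ← Finset.mul_sum, ← Finset.mul_sum, N.sum, mul_one]
  · rintro _ ⟨t, ht, rfl⟩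
    exact (ch n s).map_source (hKs ht)
  · rintro _ ⟨t, ht, rfl⟩
    rw [(ch n s).left_inv (hKs ht)]
    exact h4 t ht
  · obtain ⟨j, hj⟩ := not_forall.1 fun h' => h ⟨_, mem_iInter.2 h', (ch n s).right_inv hu⟩
    by_cases hl : j = l
    · exact .inl (comp_symm_zero hu (hl ▸ hj))
    · exact .inr ⟨j, hl, fderiv_comp_symm_zero hu hj⟩

end

theorem zero (hS : StStmt) : ZeroStmt := by
  intro n S _ _ _ _ _ C O N f γ hn hγ hf
  have h1 : ∀ a : Fin (n + 1) → N.ι, O.int (N.m (a 0))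
      (fun t => f (fun i => N.z (a i) (sec C t)) * N.ρ (a 0) t) (fun i => N.ρ (a i.succ)) =
      ∑ i : Fin (n + 1), (-1 : ℝ) ^ (i : ℕ) * piece O N γ i a := by
    intro a
    simp only [piece, Ori.int, ← integral_const_mul]
    rw [← integral_finsetSum _ fun i _ => (integrable_piece O N hγ a i 0).const_mul _]
    refine setIntegral_congr_fun (ch n _).open_target.measurableSet fun u hu => ?_
    by_cases h : ∀ i, (ch n (N.m (a 0))).symm u ∈ tsupport (N.ρ (a i))
    · simp only [Ori.loc]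
      rw [hf _ a fun i => by rw [p_sec]; exact h i, cob, Finset.sum_mul, Finset.mul_sum,
        Finset.sum_mul]
      exact Finset.sum_congr rfl fun i _ => by ring
    · obtain ⟨i, hi⟩ := not_forall.1 h
      simp only [loc_eq_zero O N a _ hu hi, mul_zero, Finset.sum_const_zero]
  rw [pair]
  simp only [h1]
  rw [Finset.sum_comm]
  refine Finset.sum_eq_zero fun i _ => ?_
  rw [← Finset.mul_sum]
  induction i using Fin.cases with
  | zero => rw [sum_piece_zero O N hS hγ ⟨0, hn⟩, mul_zero]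
  | succ i => rw [sum_piece_succ O N hγ i, mul_zero]

end Crest.Agent.N222.As

end
end

-- ▼ part N222/As/St
section

/-!
# Row 222, `C.AsphStmt`: Stokes for Jacobian determinants and the degree one computation
-/

set_option autoImplicit false
open Set Filter Topology MeasureTheory
open scoped ContDiff Manifold

noncomputable section

namespace Crest.Agent.N222.As

namespace St

variable {n : ℕ}

/-- partial derivative -/
def pd (k : Fin n) (f : Eu n → ℝ) (u : Eu n) : ℝ := fderiv ℝ f u (EuclideanSpace.single k 1)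

/-- the complementary product -/
def Q (g : Fin n → Eu n → ℝ) (j : Fin n) (σ : Equiv.Perm (Fin n)) (u : Eu n) : ℝ :=
  ∏ i ∈ Finset.univ.erase j, pd (σ i) (g i) u

theorem jd_eq (g : Fin n → Eu n → ℝ) (j : Fin n) (u : Eu n) : jd g u
    = ∑ σ : Equiv.Perm (Fin n), ((Equiv.Perm.sign σ : ℤ) : ℝ) * (Q g j σ u * pd (σ j) (g j) u) := by
  rw [jd, ← Matrix.det_transpose, Matrix.det_apply']
  refine Finset.sum_congr rfl fun σ _ => ?_
  rw [Q, Finset.prod_erase_mul _ (fun i => pd (σ i) (g i) u) (Finset.mem_univ j)]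
  rfl

theorem jd_zero {g : Fin n → Eu n → ℝ} {j : Fin n} {u : Eu n} (h : fderiv ℝ (g j) u = 0) :
    jd g u = 0 := by
  simp [jd_eq g j, pd, h]

theorem jd_lin {G g g' : Fin n → Eu n → ℝ} {j : Fin n} {u : Eu n} {a b : ℝ}
    (h : ∀ i, i ≠ j → fderiv ℝ (G i) u = fderiv ℝ (g i) u)
    (h' : ∀ i, i ≠ j → fderiv ℝ (G i) u = fderiv ℝ (g' i) u)
    (hj : fderiv ℝ (G j) u = a • fderiv ℝ (g j) u + b • fderiv ℝ (g' j) u) :
    jd G u = a * jd g u + b * jd g' u := by
  rw [jd_eq G j, jd_eq g j, jd_eq g' j, Finset.mul_sum, Finset.mul_sum, ← Finset.sum_add_distrib]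
  refine Finset.sum_congr rfl fun σ _ => ?_
  have e : Q g j σ u = Q G j σ u :=
    Finset.prod_congr rfl fun i hi => by rw [pd, pd, h i (Finset.ne_of_mem_erase hi)]
  have e' : Q g' j σ u = Q G j σ u :=
    Finset.prod_congr rfl fun i hi => by rw [pd, pd, h' i (Finset.ne_of_mem_erase hi)]
  simp only [e, e', pd, hj, _root_.add_apply, _root_.smul_apply, smul_eq_mul]
  ring

theorem contDiff_pd (k : Fin n) {f : Eu n → ℝ} (hf : ContDiff ℝ ∞ f) : ContDiff ℝ ∞ (pd k f) :=
  (hf.fderiv_right (m := ∞) (by simp)).clm_apply contDiff_const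

theorem pd_pd {f : Eu n → ℝ} (hf : ContDiff ℝ ∞ f) (k l : Fin n) (u : Eu n) :
    pd k (pd l f) u = pd l (pd k f) u := by
  have h1 : DifferentiableAt ℝ (fderiv ℝ f) u :=
    ((hf.fderiv_right (m := ∞) (by simp)).differentiable (by simp)) u
  have h2 : ∀ k l, pd k (pd l f) u
      = fderiv ℝ (fderiv ℝ f) u (EuclideanSpace.single k 1) (EuclideanSpace.single l 1) :=
    fun k l => by
      unfold pd
      rw [fderiv_clm_apply h1 (differentiableAt_const _)]
      simp
  rw [h2, h2]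
  exact (hf.contDiffAt.isSymmSndFDerivAt (by
    rw [minSmoothness_of_isRCLikeNormedField]
    exact WithTop.coe_le_coe.2 (le_top (a := (2 : ℕ∞))))).eq _ _

theorem contDiff_Q {g : Fin n → Eu n → ℝ} (hg : ∀ i, ContDiff ℝ ∞ (g i)) (j : Fin n)
    (σ : Equiv.Perm (Fin n)) : ContDiff ℝ ∞ (Q g j σ) :=
  contDiff_prod fun i _ => contDiff_pd _ (hg i)

/-- Piola's identity -/
theorem piola {g : Fin n → Eu n → ℝ} (hg : ∀ i, ContDiff ℝ ∞ (g i)) (j : Fin n) (u : Eu n) :
    ∑ σ : Equiv.Perm (Fin n), ((Equiv.Perm.sign σ : ℤ) : ℝ) * pd (σ j) (Q g j σ) u = 0 := by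
  have h1 : ∀ σ : Equiv.Perm (Fin n), pd (σ j) (Q g j σ) u = ∑ i ∈ Finset.univ.erase j,
      (∏ k ∈ (Finset.univ.erase j).erase i, pd (σ k) (g k) u) * pd (σ j) (pd (σ i) (g i)) u :=
    fun σ => by
      unfold Q
      rw [pd, fderiv_finsetProd fun i _ => (contDiff_pd _ (hg i)).differentiable (by simp) u]
      simp only [_root_.sum_apply, _root_.smul_apply, smul_eq_mul]
      rfl
  simp only [h1, Finset.mul_sum]
  rw [Finset.sum_comm]
  refine Finset.sum_eq_zero fun i hi => ?_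
  have hij : i ≠ j := Finset.ne_of_mem_erase hi
  have h2 := Equiv.sum_comp (Equiv.mulRight (Equiv.swap i j)) fun σ : Equiv.Perm (Fin n) =>
    ((Equiv.Perm.sign σ : ℤ) : ℝ) * ((∏ k ∈ (Finset.univ.erase j).erase i, pd (σ k) (g k) u)
      * pd (σ j) (pd (σ i) (g i)) u)
  have h3 : ∀ σ : Equiv.Perm (Fin n), ∏ k ∈ (Finset.univ.erase j).erase i,
      pd (σ (Equiv.swap i j k)) (g k) u = ∏ k ∈ (Finset.univ.erase j).erase i, pd (σ k) (g k) u :=
    fun σ => Finset.prod_congr rfl fun k hk => by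
      rw [Equiv.swap_apply_of_ne_of_ne (Finset.ne_of_mem_erase hk)
        (Finset.ne_of_mem_erase (Finset.mem_of_mem_erase hk))]
  simp only [Equiv.coe_mulRight, Equiv.Perm.coe_mul, Function.comp_apply, Equiv.swap_apply_left,
    Equiv.swap_apply_right, h3, map_mul, Equiv.Perm.sign_swap hij, mul_neg, mul_one, Units.val_neg,
    Int.cast_neg, neg_mul, Finset.sum_neg_distrib, fun σ : Equiv.Perm (Fin n) =>
      pd_pd (hg i) (σ i) (σ j) u] at h2
  linarith

/-- global Stokes -/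
theorem glob {g : Fin n → Eu n → ℝ} (hg : ∀ i, ContDiff ℝ ∞ (g i)) {j : Fin n}
    (hc : HasCompactSupport (g j)) : ∫ u, jd g u = 0 := by
  have c1 : ∀ k, HasCompactSupport (pd k (g j)) := fun k =>
    hc.fderiv_apply (𝕜 := ℝ) (EuclideanSpace.single k 1)
  have i1 : ∀ σ : Equiv.Perm (Fin n), Integrable fun u => Q g j σ u * pd (σ j) (g j) u := fun σ =>
    ((contDiff_Q hg j σ).continuous.mul
      (contDiff_pd _ (hg j)).continuous).integrable_of_hasCompactSupport (c1 _).mul_left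
  have i2 : ∀ σ : Equiv.Perm (Fin n), Integrable fun u => pd (σ j) (Q g j σ) u * g j u := fun σ =>
    ((contDiff_pd _ (contDiff_Q hg j σ)).continuous.mul
      (hg j).continuous).integrable_of_hasCompactSupport hc.mul_left
  have i3 : ∀ σ : Equiv.Perm (Fin n), Integrable fun u => Q g j σ u * g j u := fun σ =>
    ((contDiff_Q hg j σ).continuous.mul (hg j).continuous).integrable_of_hasCompactSupport
      hc.mul_left
  have e : ∀ σ : Equiv.Perm (Fin n), ∫ u, Q g j σ u * pd (σ j) (g j) u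
      = -∫ u, pd (σ j) (Q g j σ) u * g j u := fun σ =>
    integral_mul_fderiv_eq_neg_fderiv_mul_of_integrable (i2 σ) (i1 σ) (i3 σ)
      (fun u _ => (contDiff_Q hg j σ).differentiable (by simp) u)
      fun u _ => (hg j).differentiable (by simp) u
  simp only [jd_eq g j]
  rw [integral_finsetSum _ fun σ _ => (i1 σ).const_mul _]
  simp only [integral_const_mul, e, mul_neg, Finset.sum_neg_distrib, neg_eq_zero]
  simp only [← integral_const_mul]
  rw [← integral_finsetSum _ fun σ _ => (i2 σ).const_mul _]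
  simp only [← mul_assoc, ← Finset.sum_mul, piola hg j, zero_mul, integral_zero]

theorem exists_cut {K V : Set (Eu n)} (hK : IsCompact K) (hV : IsOpen V) (h : K ⊆ V) :
    ∃ (η : Eu n → ℝ) (L : Set (Eu n)), ContDiff ℝ ∞ η ∧ IsCompact L ∧ K ⊆ L ∧ L ⊆ V ∧
      (∀ u ∈ K, η =ᶠ[𝓝 u] 1) ∧ ∀ u, u ∉ L → η =ᶠ[𝓝 u] 0 := by
  obtain ⟨L, hL, h1, h2⟩ := exists_compact_between hK hV h
  obtain ⟨f, f1, f0, -⟩ := exists_contMDiffMap_one_nhds_of_subset_interior (n := ⊤)
    (modelWithCornersSelf ℝ (Eu n)) hK.isClosed h1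
  refine ⟨f, L, f.contMDiff.contDiff, hL, h1.trans interior_subset, h2,
    fun u hu => f1.filter_mono (nhds_le_nhdsSet hu), fun u hu => ?_⟩
  exact eventually_of_mem (hL.isClosed.isOpen_compl.mem_nhds hu) f0

theorem contDiff_cut {L V : Set (Eu n)} (hV : IsOpen V) (h : L ⊆ V) {η f : Eu n → ℝ}
    (hη : ContDiff ℝ ∞ η) (h0 : ∀ u, u ∉ L → η =ᶠ[𝓝 u] 0) (hf : ContDiffOn ℝ ∞ f V) :
    ContDiff ℝ ∞ fun u => η u * f u := by
  refine contDiff_iff_contDiffAt.2 fun u => ?_
  by_cases hu : u ∈ L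
  · exact hη.contDiffAt.mul (hf.contDiffAt (hV.mem_nhds (h hu)))
  · exact (contDiffAt_const (c := (0 : ℝ))).congr_of_eventuallyEq
      ((h0 u hu).mono fun v hv => by simp [hv])

end St

open St in
theorem st : StStmt := by
  intro n Ω K g κ j hΩ hK hKΩ hg hκ h0
  have hV : IsOpen (Ω ∩ {u | ∀ᶠ v in 𝓝 u, κ v = κ u}) := by
    refine hΩ.inter (isOpen_iff_mem_nhds.2 fun u hu => ?_)
    filter_upwards [hu, hu.eventually_nhds] with v h1 h2
    exact h2.mono fun w hw => hw.trans h1.symm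
  obtain ⟨η, L, hη, hL, hKL, hLV, η1, η0⟩ := exists_cut hK hV fun u hu => ⟨hKΩ hu, hκ u hu⟩
  obtain ⟨ζ, L', hζ, -, -, hL', ζ1, ζ0⟩ := exists_cut hL hΩ fun u hu => (hLV hu).1
  have hκ' : ContDiffOn ℝ ∞ κ (Ω ∩ {u | ∀ᶠ v in 𝓝 u, κ v = κ u}) := fun u hu =>
    ((contDiffAt_const (c := κ u)).congr_of_eventuallyEq hu.2).contDiffWithinAt
  let G : Fin n → Eu n → ℝ := Function.update (fun i u => ζ u * g i u) j fun u => η u * (κ u * g j u)
  have Gj : G j = fun u => η u * (κ u * g j u) := Function.update_self ..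
  have Gi : ∀ i, i ≠ j → G i = fun u => ζ u * g i u := fun i hi => Function.update_of_ne hi ..
  have hG : ∀ i, ContDiff ℝ ∞ (G i) := fun i => by
    by_cases hi : i = j
    · rw [hi, Gj]
      exact contDiff_cut hV hLV hη η0 (hκ'.mul ((hg j).mono inter_subset_left))
    · rw [Gi i hi]
      exact contDiff_cut hΩ hL' hζ ζ0 (hg i)
  have z1 : ∀ u, u ∉ L → jd G u = 0 := fun u hu => jd_zero (j := j) (by
    rw [Gj, EventuallyEq.fderiv_eq (f := fun _ => (0 : ℝ))
      ((η0 u hu).mono fun v hv => by simp [hv])]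
    simp)
  have z2 : ∀ u ∈ L, ∀ i, i ≠ j → fderiv ℝ (G i) u = fderiv ℝ (g i) u := fun u hu i hi => by
    rw [Gi i hi]
    exact EventuallyEq.fderiv_eq ((ζ1 u hu).mono fun v hv => by simp [hv])
  have hc : HasCompactSupport (G j) := HasCompactSupport.intro hL fun u hu => by
    rw [Gj]; simp [(η0 u hu).self_of_nhds]
  rw [← glob hG hc, ← setIntegral_eq_integral_of_forall_compl_eq_zero (s := Ω)
    fun u hu => z1 u fun h => hu (hLV h).1]
  refine setIntegral_congr_fun hΩ.measurableSet fun u hu => ?_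
  by_cases huK : u ∈ K
  · rw [jd_lin (a := κ u) (b := 0) (z2 u (hKL huK)) (z2 u (hKL huK)), zero_mul, add_zero]
    rw [zero_smul, add_zero, Gj, ← fderiv_const_smul
      (((hg j).contDiffAt (hΩ.mem_nhds hu)).differentiableAt (by simp))]
    refine EventuallyEq.fderiv_eq ?_
    filter_upwards [η1 u huK, hκ u huK] with v h1 h2
    simp [h1, h2]
  · rcases h0 u hu huK with h | ⟨i, hi, h⟩
    · rw [jd_zero (j := j) (by rw [h.fderiv_eq]; simp), mul_zero, jd_zero (j := j)]
      rw [Gj, EventuallyEq.fderiv_eq (f := fun _ => (0 : ℝ)) (h.mono fun v hv => by simp [hv])]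
      simp
    · rw [jd_zero h, mul_zero]
      by_cases huL : u ∈ L
      · exact (jd_zero ((z2 u huL i hi).trans h)).symm
      · exact (z1 u huL).symm

namespace St

variable {n : ℕ} {u₀ : Eu n} {δ R : ℝ} {g g' : Fin n → Eu n → ℝ}

/-- admissible families -/
def Adm (u₀ : Eu n) (δ R : ℝ) (i : Fin n) (f : Eu n → ℝ) : Prop :=
  ContDiffOn ℝ ∞ f (Metric.ball u₀ R) ∧
    ∀ u ∈ Metric.ball u₀ R, (δ < u i - u₀ i → f u = 1) ∧ (u i - u₀ i < -δ → f u = 0)

/-- the cube -/
def cube (u₀ : Eu n) (δ : ℝ) : Set (Eu n) := {u | ∀ i, |u i - u₀ i| ≤ δ}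

theorem cube_subset (hδ : 0 < δ) (hR : (n + 1) * δ ≤ R) : cube u₀ δ ⊆ Metric.ball u₀ R := by
  intro u hu
  rw [mem_ball_iff_norm]
  have h1 : ‖u - u₀‖ ^ 2 ≤ n * δ ^ 2 := by
    rw [EuclideanSpace.real_norm_sq_eq]
    refine (Finset.sum_le_card_nsmul _ _ (δ ^ 2) fun i _ => sq_le_sq' ?_ ?_).trans (by simp)
    exacts [(abs_le.1 (hu i)).1, (abs_le.1 (hu i)).2]
  refine lt_of_lt_of_le (lt_of_pow_lt_pow_left₀ 2 (by positivity) (h1.trans_lt ?_)) hR
  have : (0 : ℝ) ≤ n := n.cast_nonneg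
  nlinarith [mul_pos hδ hδ, mul_nonneg (mul_nonneg this this) (mul_pos hδ hδ).le,
    mul_nonneg this (mul_pos hδ hδ).le]

theorem isCompact_cube (hδ : 0 < δ) : IsCompact (cube u₀ δ) := by
  refine Metric.isCompact_of_isClosed_isBounded ?_
    (Metric.isBounded_ball.subset (cube_subset hδ le_rfl))
  simp only [cube, ofPred_forall]
  exact isClosed_iInter fun i => isClosed_le (by fun_prop) continuous_const

theorem Adm.ev {i : Fin n} {u : Eu n} (hu : u ∈ Metric.ball u₀ R) (hi : δ < |u i - u₀ i|) :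
    ∃ c : ℝ, ∀ f, Adm u₀ δ R i f → f =ᶠ[𝓝 u] fun _ => c := by
  have hb := Metric.isOpen_ball.mem_nhds hu
  have hc : Continuous fun u : Eu n => u i - u₀ i := by fun_prop
  rcases lt_abs.1 hi with h | h
  · refine ⟨1, fun f hf => ?_⟩
    filter_upwards [hb, (isOpen_lt continuous_const hc).mem_nhds h] with v h1 h2
    exact (hf.2 v h1).1 h2
  · refine ⟨0, fun f hf => ?_⟩
    filter_upwards [hb, (isOpen_lt hc continuous_const).mem_nhds (lt_neg.1 h)] with v h1 h2
    exact (hf.2 v h1).2 h2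

theorem continuousOn_jd {Ω : Set (Eu n)} (hΩ : IsOpen Ω) (hg : ∀ i, ContDiffOn ℝ ∞ (g i) Ω) :
    ContinuousOn (jd g) Ω := by
  unfold jd
  simp only [Matrix.det_apply', Matrix.of_apply]
  exact continuousOn_finsetSum _ fun σ _ => continuousOn_const.mul
    (continuousOn_finsetProd _ fun i _ =>
      ((hg _).continuousOn_fderiv_of_isOpen hΩ (by simp)).clm_apply continuousOn_const)

theorem integrableOn_jd (hδ : 0 < δ) (hR : (n + 1) * δ ≤ R) (hg : ∀ i, Adm u₀ δ R i (g i)) :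
    IntegrableOn (jd g) (Metric.ball u₀ R) := by
  refine IntegrableOn.of_forall_sdiff_eq_zero
    (((continuousOn_jd Metric.isOpen_ball fun i => (hg i).1).mono
      (cube_subset hδ hR)).integrableOn_compact (isCompact_cube hδ)) measurableSet_ball
    fun u hu => ?_
  obtain ⟨i, hi⟩ := not_forall.1 hu.2
  obtain ⟨c, hc⟩ := Adm.ev hu.1 (not_le.1 hi)
  exact jd_zero (j := i) (by rw [(hc _ (hg i)).fderiv_eq]; simp)

theorem step (hS : StStmt) (hδ : 0 < δ) (hR : (n + 1) * δ ≤ R) (hg : ∀ i, Adm u₀ δ R i (g i))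
    (hg' : ∀ i, Adm u₀ δ R i (g' i)) {j : Fin n} (e : ∀ i, i ≠ j → g' i = g i) :
    ∫ u in Metric.ball u₀ R, jd g' u = ∫ u in Metric.ball u₀ R, jd g u := by
  let G : Fin n → Eu n → ℝ := Function.update g j (g j - g' j)
  have Gj : G j = g j - g' j := Function.update_self ..
  have Gi : ∀ i, i ≠ j → G i = g i := fun i hi => Function.update_of_ne hi ..
  have h1 := hS n _ _ G (fun _ => 1) j Metric.isOpen_ball (isCompact_cube hδ) (cube_subset hδ hR)
    (fun i => by
      by_cases hi : i = j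
      · rw [hi, Gj]; exact (hg j).1.sub (hg' j).1
      · rw [Gi i hi]; exact (hg i).1)
    (fun _ _ => Eventually.of_forall fun _ => rfl) fun u hu huK => by
      obtain ⟨i, hi⟩ := not_forall.1 huK
      obtain ⟨c, hc⟩ := Adm.ev hu (not_le.1 hi)
      by_cases hij : i = j
      · subst hij
        refine Or.inl ?_
        filter_upwards [hc _ (hg i), hc _ (hg' i)] with v h1 h2
        simp [Gj, h1, h2]
      · exact Or.inr ⟨i, hij, by rw [Gi i hij, (hc _ (hg i)).fderiv_eq]; simp⟩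
  rw [setIntegral_congr_fun (g := fun u => jd g u - jd g' u) measurableSet_ball fun u hu => by
    have hb := Metric.isOpen_ball.mem_nhds hu
    beta_reduce
    rw [jd_lin (g := g) (g' := g') (a := 1) (b := -1) (fun i hi => by rw [Gi i hi])
      (fun i hi => by rw [Gi i hi, e i hi]) (by
        rw [Gj, fderiv_sub (((hg j).1.contDiffAt hb).differentiableAt (by simp))
          (((hg' j).1.contDiffAt hb).differentiableAt (by simp)), one_smul, neg_one_smul,
          sub_eq_add_neg])]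
    ring, integral_sub (integrableOn_jd hδ hR hg) (integrableOn_jd hδ hR hg')] at h1
  linarith

/-- the model family -/
def Bm (u₀ : Eu n) (δ : ℝ) (i : Fin n) (u : Eu n) : ℝ :=
  Real.smoothTransition ((u i - u₀ i + δ) / (2 * δ))

theorem adm_Bm (hδ : 0 < δ) (i : Fin n) : Adm u₀ δ R i (Bm u₀ δ i) := by
  refine ⟨(Real.smoothTransition.contDiff.comp (by fun_prop)).contDiffOn, fun u _ => ⟨fun h => ?_,
    fun h => ?_⟩⟩
  · exact Real.smoothTransition.one_of_one_le ((one_le_div (by positivity)).2 (by linarith))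
  · exact Real.smoothTransition.zero_of_nonpos
      (div_nonpos_of_nonpos_of_nonneg (by linarith) (by positivity))

theorem jd_Bm (u : Eu n) : jd (Bm u₀ δ) u
    = ∏ i, deriv Real.smoothTransition ((u i - u₀ i + δ) / (2 * δ)) / (2 * δ) := by
  rw [← Matrix.det_diagonal, jd]
  congr 1
  ext i k
  have h1 : HasFDerivAt (fun u : Eu n => (u i - u₀ i + δ) / (2 * δ))
      ((2 * δ)⁻¹ • EuclideanSpace.proj (𝕜 := ℝ) i) u := by
    simp only [div_eq_inv_mul]
    exact ((((EuclideanSpace.proj (𝕜 := ℝ) i).hasFDerivAt).sub_const _).add_const _).const_mul _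
  have h2 := ((Real.smoothTransition.contDiff (n := 1)).differentiable (by simp)
    _).hasDerivAt.comp_hasFDerivAt u h1
  rw [Matrix.of_apply, show Bm u₀ δ i = Real.smoothTransition ∘ fun u : Eu n =>
    (u i - u₀ i + δ) / (2 * δ) from rfl, h2.fderiv]
  by_cases hik : i = k
  · simp [hik, div_eq_mul_inv]
  · simp [hik]

theorem pos_Bm (hδ : 0 < δ) (hR : (n + 1) * δ ≤ R) :
    0 < ∫ u in Metric.ball u₀ R, jd (Bm u₀ δ) u := by
  have h0 : ∀ u, 0 ≤ jd (Bm u₀ δ) u := fun u => by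
    rw [jd_Bm]
    exact Finset.prod_nonneg fun i _ =>
      div_nonneg Real.smoothTransition.monotone.deriv_nonneg (by positivity)
  rw [setIntegral_pos_iff_support_of_nonneg_ae (Eventually.of_forall h0)
    (integrableOn_jd hδ hR (adm_Bm hδ)), inter_comm]
  obtain ⟨t, ht, ht'⟩ := exists_deriv_eq_slope Real.smoothTransition zero_lt_one
    Real.smoothTransition.continuous.continuousOn
    ((Real.smoothTransition.contDiff (n := 1)).differentiable (by simp)).differentiableOn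
  refine ((continuousOn_jd Metric.isOpen_ball fun i =>
    (adm_Bm (R := R) hδ i).1).isOpen_inter_preimage Metric.isOpen_ball
    isOpen_compl_singleton).measure_pos _ ⟨WithLp.toLp 2 fun i => u₀ i - δ + 2 * δ * t,
      cube_subset hδ hR fun i => abs_le.2 ⟨?_, ?_⟩, ?_⟩
  · nlinarith [ht.1]
  · nlinarith [ht.2]
  · change jd _ _ ≠ 0
    rw [jd_Bm]
    refine Finset.prod_ne_zero_iff.2 fun i _ => ?_
    have : (u₀ i - δ + 2 * δ * t - u₀ i + δ) / (2 * δ) = t := by field_simp; ring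
    simp only [this, ht']
    simp [hδ.ne']

end St

open St in
theorem deg (hS : StStmt) : DegStmt := by
  classical
  intro n u₀ δ R g hδ hR hg h01
  have ha : ∀ s : Finset (Fin n), ∀ i, Adm u₀ δ R i (s.piecewise (Bm u₀ δ) g i) := fun s i => by
    by_cases hi : i ∈ s
    · rw [Finset.piecewise_eq_of_mem _ _ _ hi]; exact adm_Bm hδ i
    · rw [Finset.piecewise_eq_of_notMem _ _ _ hi]; exact ⟨hg i, h01 i⟩
  have key : ∀ s : Finset (Fin n), ∫ u in Metric.ball u₀ R, jd (s.piecewise (Bm u₀ δ) g) u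
      = ∫ u in Metric.ball u₀ R, jd g u := fun s => by
    induction s using Finset.induction_on with
    | empty => rw [Finset.piecewise_empty]
    | insert j s hj ih =>
      rw [← ih]
      exact step hS hδ hR (ha s) (ha _) fun i hi => Finset.piecewise_insert_of_ne _ _ _ hi
  rw [← key Finset.univ, Finset.piecewise_univ]
  exact (pos_Bm hδ hR).ne'

end Crest.Agent.N222.As

end
end

-- ▼ part N222/As/Loc
section

/-!
# Row 222, `As.LocStmt`: the local orientation class
-/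

set_option autoImplicit false
set_option linter.unusedSectionVars false
open Set Filter Topology MeasureTheory Metric
open scoped ContDiff Manifold

noncomputable section

namespace Crest.Agent.N222.As

open Crest.Agent.N222.C

namespace Lc

variable {n : ℕ}

/-! ### determinants -/

/-- the oriented volume of a simplex -/
def vol (r : Fin (n + 1) → Fin n → ℝ) : ℝ := (Matrix.of fun j i => r j.succ i - r 0 i).det

theorem vol_eq (r : Fin (n + 1) → Fin n → ℝ) :
    vol r = (Matrix.of fun j => (Fin.cons 1 (r j) : Fin (n + 1) → ℝ)).det := by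
  rw [Matrix.det_eq_of_forall_row_eq_smul_add_const
    (B := Matrix.of (Fin.cons (Fin.cons 1 (r 0)) fun j => Fin.cons 0 fun i => r j.succ i - r 0 i :
      Fin (n + 1) → Fin (n + 1) → ℝ)) (Fin.cons 0 fun _ => 1) 0 rfl, Matrix.det_succ_column_zero,
    Fin.sum_univ_succ]
  · simp only [Matrix.of_apply, Fin.cons_zero, Fin.cons_succ, mul_zero, zero_mul,
      Finset.sum_const_zero, add_zero, Fin.val_zero, pow_zero, one_mul]
    rfl
  · intro j i
    refine Fin.cases ?_ (fun j => ?_) j <;> refine Fin.cases ?_ (fun i => ?_) i <;> simp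

theorem cob_vol (r : Fin (n + 2) → Fin n → ℝ) : cob vol r = 0 := by
  have h := Matrix.det_zero_of_column_eq
    (M := Matrix.of fun j => (Fin.cons 1 (Fin.cons 1 (r j)) : Fin (n + 2) → ℝ))
    (i := 0) (j := Fin.succ 0) (Fin.succ_ne_zero _).symm fun _ => rfl
  rw [Matrix.det_succ_column_zero] at h
  rw [← h, cob]
  refine Finset.sum_congr rfl fun i _ => ?_
  rw [vol_eq]
  simp only [Matrix.of_apply, Fin.cons_zero, mul_one]
  rfl

theorem vol_eq_zero {r : Fin (n + 1) → Fin n → ℝ} (i : Fin n) {b : ℝ} (h : ∀ j, r j i = b) :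
    vol r = 0 :=
  Matrix.det_eq_zero_of_column_eq_zero i fun j => by simp [h]

/-- Cauchy-Binet, summed over all maps -/
theorem binet {ι : Type} [Fintype ι] (P Q : ι → Fin n → ℝ) :
    ∑ β : Fin n → ι, (Matrix.of fun j => P (β j)).det * (Matrix.of fun j => Q (β j)).det =
      n.factorial * (Matrix.of fun i l => ∑ b, P b i * Q b l).det := by
  classical
  have h1 : (Matrix.of fun i l => ∑ b, P b i * Q b l).det =
      ∑ β : Fin n → ι, (∏ l, Q (β l) l) * (Matrix.of fun j => P (β j)).det := by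
    have h := (Matrix.detRowAlternating (n := Fin n) (R := ℝ)).toMultilinearMap.map_sum
      fun l b => Q b l • P b
    simp only [MultilinearMap.map_smul_univ, smul_eq_mul] at h
    rw [← Matrix.det_transpose]
    refine Eq.trans (congrArg Matrix.det ?_) h
    ext l i
    simp [mul_comm]
  have h2 : ∀ σ : Equiv.Perm (Fin n), ∑ β : Fin n → ι, (Matrix.of fun j => P (β j)).det *
      (((Equiv.Perm.sign σ : ℤ) : ℝ) * ∏ l, Q (β (σ l)) l) =
      (Matrix.of fun i l => ∑ b, P b i * Q b l).det := fun σ => by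
    rw [h1]
    refine Eq.trans (Finset.sum_congr rfl fun β _ => ?_)
      ((Equiv.arrowCongr σ (Equiv.refl ι)).symm.sum_comp _)
    have h3 := Matrix.det_permute σ (Matrix.of fun j => P (β j))
    have h4 : (Matrix.of fun j => P ((Equiv.arrowCongr σ (Equiv.refl ι)).symm β j)) =
      (Matrix.of fun j => P (β j)).submatrix σ id := rfl
    rw [h4, h3]
    change _ = (∏ l, Q (β (σ l)) l) * _
    ring
  simp only [fun β : Fin n → ι => Matrix.det_apply' (Matrix.of fun j => Q (β j)), Finset.mul_sum,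
    Matrix.of_apply]
  rw [Finset.sum_comm]
  simp only [h2, Finset.sum_const, Finset.card_univ, Fintype.card_perm, Fintype.card_fin,
    nsmul_eq_mul]

theorem exists_coord {u : Eu n} {δ : ℝ} (hδ : 0 < δ) (h : (n + 1) * δ < ‖u‖) : ∃ i, δ < |u i| := by
  by_contra hn
  push Not at hn
  have h1 : ‖u‖ ^ 2 ≤ n * δ ^ 2 := by
    rw [EuclideanSpace.real_norm_sq_eq]
    calc ∑ i, u i ^ 2 ≤ ∑ _i : Fin n, δ ^ 2 := Finset.sum_le_sum fun i _ => by
          rw [← sq_abs]; exact pow_le_pow_left₀ (abs_nonneg _) (hn i) 2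
      _ = n * δ ^ 2 := by simp
  have h2 : (0 : ℝ) ≤ n := Nat.cast_nonneg n
  have h3 := pow_lt_pow_left₀ h (by positivity) two_ne_zero
  nlinarith [mul_nonneg (sq_nonneg (n : ℝ)) (sq_nonneg δ), mul_nonneg h2 (sq_nonneg δ), sq_pos_of_pos hδ]

/-! ### the cochain -/

variable {S : Type} [TopologicalSpace S] [ChartedSpace (Eu n) S] {C : Cov S}

variable (n) in
/-- closed coordinate balls -/
def Bl (s : S) (r : ℝ) : Set S := {t | t ∈ (ch n s).source ∧ ‖ch n s t - ch n s s‖ ≤ r}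

theorem Bl_mono (s : S) {r r' : ℝ} (h : r ≤ r') : Bl n s r ⊆ Bl n s r' :=
  fun _ ht => ⟨ht.1, ht.2.trans h⟩

theorem isCompact_Bl {s : S} {r : ℝ} (h : closedBall (ch n s s) r ⊆ (ch n s).target) :
    IsCompact (Bl n s r) := by
  convert (isCompact_closedBall (ch n s s) r).image_of_continuousOn
    ((ch n s).continuousOn_symm.mono h) using 1
  ext t
  constructor
  · exact fun ht => ⟨_, mem_closedBall_iff_norm.2 ht.2, (ch n s).left_inv ht.1⟩
  · rintro ⟨u, hu, rfl⟩
    exact ⟨(ch n s).map_target (h hu), by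
      rw [(ch n s).right_inv (h hu)]; exact mem_closedBall_iff_norm.1 hu⟩

open Classical in
variable (n) in
/-- the quadrant of a point -/
def Fq (s t : S) (i : Fin n) : ℝ := if 0 < ch n s t i - ch n s s i then 1 else 0

/-- the cochain -/
def co (O : Ori n C) (s : S) (δ : ℝ) (y : Fin (n + 1) → C.T) : ℝ :=
  (Bl n s ((n + 2) * δ)).indicator 1 (C.p (y 0)) * O.ε (y 0) s * vol fun j => Fq n s (C.p (y j))

theorem tw_co (O : Ori n C) (s : S) (δ : ℝ) : Tw O.χ (co O s δ) := by
  intro g y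
  simp only [co, C.p_smul]
  by_cases h : C.p (y 0) ∈ Bl n s ((n + 2) * δ)
  · rw [O.tw g _ s h.1]; ring
  · simp [indicator_of_notMem h]

theorem cob_eq_zero {Y : Type} {k : ℕ} {f : (Fin k → Y) → ℝ} {y : Fin (k + 1) → Y}
    (h : ∀ i : Fin (k + 1), f (fun j => y (i.succAbove j)) = 0) : cob f y = 0 :=
  Finset.sum_eq_zero fun i _ => by rw [h, mul_zero]

theorem tendsto_ch {s : S} {x : C.T} (hx : C.p x ∈ (ch n s).source) :
    Tendsto (fun x' => ch n s (C.p x')) (𝓝 x) (𝓝 (ch n s (C.p x))) :=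
  ((ch n s).continuousAt hx).tendsto.comp C.cov.continuous.continuousAt

theorem ev_source {s : S} {x : C.T} (hx : C.p x ∈ (ch n s).source) :
    ∀ᶠ x' in 𝓝 x, C.p x' ∈ (ch n s).source :=
  C.cov.continuous.continuousAt.preimage_mem_nhds ((ch n s).open_source.mem_nhds hx)

theorem coc_co (O : Ori n C) {s : S} {δ : ℝ} (hδ : 0 < δ)
    (hc : IsClosed (Bl n s ((n + 2) * δ))) (x₀ : C.T) :
    ∃ W ∈ 𝓝 x₀, ∀ y : Fin (n + 2) → C.T, (∀ i, y i ∈ W) → cob (co O s δ) y = 0 := by
  by_cases h : C.p x₀ ∈ Bl n s ((n + 2) * δ)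
  swap
  · exact ⟨_, (hc.isOpen_compl.preimage C.cov.continuous).mem_nhds h, fun y hy =>
      cob_eq_zero fun i => by rw [co, indicator_of_notMem (hy _), zero_mul, zero_mul]⟩
  by_cases h0 : ch n s (C.p x₀) = ch n s s
  · have h1 : ∀ᶠ x in 𝓝 x₀, ch n s (C.p x) ∈ closedBall (ch n s s) ((n + 2) * δ) :=
      tendsto_ch h.1 (h0 ▸ closedBall_mem_nhds _ (by positivity))
    refine ⟨_, (ev_source h.1).and (h1.and (O.lc x₀ s h.1)), fun y hy => ?_⟩
    rw [← mul_zero (O.ε x₀ s), ← cob_vol fun j => Fq n s (C.p (y j)), ← cob_mul]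
    refine Finset.sum_congr rfl fun i _ => ?_
    rw [co, indicator_of_mem (show _ ∈ Bl n s _ from
      ⟨(hy _).1, mem_closedBall_iff_norm.1 (hy _).2.1⟩), (hy _).2.2, Pi.one_apply, one_mul]
  · obtain ⟨i, hi⟩ : ∃ i, ch n s (C.p x₀) i ≠ ch n s s i := by
      by_contra hn
      push Not at hn
      exact h0 (PiLp.ext hn)
    have h1 : Tendsto (fun x => ch n s (C.p x) i - ch n s s i) (𝓝 x₀)
        (𝓝 (ch n s (C.p x₀) i - ch n s s i)) :=
      (((EuclideanSpace.proj (𝕜 := ℝ) i).continuous.tendsto _).comp (tendsto_ch h.1)).sub_const _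
    have h2 : ∀ᶠ x in 𝓝 x₀, Fq n s (C.p x) i = Fq n s (C.p x₀) i := by
      rcases (sub_ne_zero.2 hi).lt_or_gt with h3 | h3
      · filter_upwards [h1.eventually (gt_mem_nhds h3)] with x hx
        rw [Fq, Fq, if_neg hx.not_gt, if_neg h3.not_gt]
      · filter_upwards [h1.eventually (lt_mem_nhds h3)] with x hx
        rw [Fq, Fq, if_pos hx, if_pos h3]
    exact ⟨_, h2, fun y hy => cob_eq_zero fun j => by
      rw [co, vol_eq_zero i fun l => hy _, mul_zero]⟩

/-- the net is fine near the ball -/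
def Near (O : Ori n C) (N : Net n C) (s : S) (δ : ℝ) : Prop :=
  ∀ x a, C.p x ∈ tsupport (N.ρ a) →
    (C.p x ∈ Bl n s ((n + 4) * δ) ∨ N.m a ∈ Bl n s ((n + 4) * δ)) →
    C.p x ∈ (ch n s).source ∧ N.m a ∈ (ch n s).source ∧ ‖ch n s (C.p x) - ch n s (N.m a)‖ < δ ∧
      O.ε (N.z a x) s = O.ε x s

theorem exists_nhds (O : Ori n C) {s : S} {δ : ℝ} (hδ : 0 < δ)
    (hc : IsClosed (Bl n s ((n + 4) * δ))) : ∃ V : C.T → Set C.T, (∀ x, V x ∈ 𝓝 x) ∧
      ∀ (N : Net n C) (V' : C.T → Set C.T), (∀ x, V' x ⊆ V x) → N.Fine V' → Near O N s δ := by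
  classical
  refine ⟨fun x₀ => if C.p x₀ ∈ (ch n s).source then {x | C.p x ∈ (ch n s).source ∧
    ch n s (C.p x) ∈ ball (ch n s (C.p x₀)) (δ / 2) ∧ O.ε x s = O.ε x₀ s} else
    {x | C.p x ∉ Bl n s ((n + 4) * δ)}, fun x₀ => ?_, fun N V' hV hN x a ha hB => ?_⟩
  · beta_reduce
    split_ifs with h
    · exact (ev_source h).and ((show ∀ᶠ x in 𝓝 x₀, _ from
        tendsto_ch h (ball_mem_nhds _ (half_pos hδ))).and (O.lc x₀ s h))
    · exact (hc.isOpen_compl.preimage C.cov.continuous).mem_nhds fun h' => h h'.1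
  · obtain ⟨g, x₀, h1, h2⟩ := hN x
    have h3 := hV _ h1
    have h4 := hV _ (h2 a ha)
    beta_reduce at h3 h4
    split_ifs at h3 h4 with h
    · simp only [mem_ofPred_eq, C.p_smul, N.p_z] at h3 h4
      refine ⟨h3.1, h4.1, ?_, ?_⟩
      · have := dist_triangle_right (ch n s (C.p x)) (ch n s (N.m a)) (ch n s (C.p x₀))
        rw [← dist_eq_norm]
        linarith [mem_ball.1 h3.2.1, mem_ball.1 h4.2.1]
      · have h5 := h4.2.2.trans h3.2.2.symm
        rw [O.tw g _ s h3.1, O.tw g _ s (by rw [N.p_z]; exact h4.1)] at h5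
        exact mul_left_cancel₀ (left_ne_zero_of_mul_eq_one (sg_mul_self O.χ g)) h5
    · simp only [mem_ofPred_eq, C.p_smul, N.p_z] at h3 h4
      exact (hB.elim h3 h4).elim

variable {O : Ori n C} {N : Net n C} {s : S} {δ : ℝ}

theorem Near.of_ne (h : Near O N s δ) {t : S} {a : N.ι} (ha : N.ρ a t ≠ 0)
    (hB : t ∈ Bl n s ((n + 4) * δ) ∨ N.m a ∈ Bl n s ((n + 4) * δ)) :
    t ∈ (ch n s).source ∧ N.m a ∈ (ch n s).source ∧ ‖ch n s t - ch n s (N.m a)‖ < δ ∧
      O.ε (N.z a (sec C t)) s = O.ε (sec C t) s := by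
  have := h (sec C t) a
  rw [p_sec] at this
  exact this (subset_tsupport _ ha) hB

/-- the approximation of the quadrant map -/
def GG (N : Net n C) (s : S) (i : Fin n) (u : Eu n) : ℝ :=
  ∑ b, Fq n s (N.m b) i * N.ρ b ((ch n s).symm u)

theorem contDiffOn_GG (N : Net n C) (s : S) (i : Fin n) :
    ContDiffOn ℝ ∞ (GG N s i) (ch n s).target :=
  ContDiffOn.sum fun b _ => contDiffOn_const.mul (N.sm b s)

theorem Near.GG_eq (h : Near O N s δ)
    (hb : closedBall (ch n s s) ((n + 4) * δ) ⊆ (ch n s).target) (i : Fin n) {u : Eu n}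
    (hu : u ∈ ball (ch n s s) ((n + 4) * δ)) :
    (δ < u i - ch n s s i → GG N s i u = 1) ∧ (u i - ch n s s i < -δ → GG N s i u = 0) := by
  have hu' := hb (ball_subset_closedBall hu)
  have h1 : ∀ b, N.ρ b ((ch n s).symm u) ≠ 0 → |u i - ch n s (N.m b) i| < δ := fun b hb' => by
    have := (h.of_ne hb' (Or.inl ⟨(ch n s).map_target hu', by
      rw [(ch n s).right_inv hu']; exact (mem_ball_iff_norm.1 hu).le⟩)).2.2.1
    rw [(ch n s).right_inv hu'] at this
    exact (PiLp.norm_apply_le (u - ch n s (N.m b)) i).trans_lt this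
  refine ⟨fun hi => ?_, fun hi => Finset.sum_eq_zero fun b _ => ?_⟩
  · rw [← N.sum ((ch n s).symm u)]
    refine Finset.sum_congr rfl fun b _ => ?_
    by_cases h0 : N.ρ b ((ch n s).symm u) = 0
    · rw [h0, mul_zero]
    · rw [Fq, if_pos (by linarith [(abs_lt.1 (h1 b h0)).2]), one_mul]
  · by_cases h0 : N.ρ b ((ch n s).symm u) = 0
    · rw [h0, mul_zero]
    · rw [Fq, if_neg (by linarith [(abs_lt.1 (h1 b h0)).1]), zero_mul]

/-- the sum over the last `n` indices -/
theorem sum_jd (N : Net n C) (s : S) {u : Eu n} (hu : u ∈ (ch n s).target) (a : N.ι) :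
    ∑ β : Fin n → N.ι, (vol fun j => Fq n s (N.m ((Fin.cons a β : Fin (n + 1) → N.ι) j))) *
      jd (fun i => N.ρ (β i) ∘ (ch n s).symm) u = n.factorial * jd (GG N s) u := by
  have hd : ∀ b, DifferentiableAt ℝ (N.ρ b ∘ (ch n s).symm) u := fun b =>
    ((N.sm b s).contDiffAt ((ch n s).open_target.mem_nhds hu)).differentiableAt (by simp)
  have h0 : ∀ w, ∑ b, fderiv ℝ (N.ρ b ∘ (ch n s).symm) u w = 0 := fun w => by
    rw [← sum_apply, ← fderiv_fun_sum fun b _ => hd b,
      show (fun v => ∑ b, (N.ρ b ∘ (ch n s).symm) v) = fun _ => (1 : ℝ) from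
        funext fun v => N.sum _, fderiv_fun_const]
    rfl
  have h1 : ∀ i w, fderiv ℝ (GG N s i) u w =
      ∑ b, Fq n s (N.m b) i * fderiv ℝ (N.ρ b ∘ (ch n s).symm) u w := fun i w => by
    have := (HasFDerivAt.fun_sum fun b (_ : b ∈ Finset.univ) =>
      (hd b).hasFDerivAt.const_mul (Fq n s (N.m b) i)).fderiv
    refine (congrArg (fun T : Eu n →L[ℝ] ℝ => T w) this).trans ?_
    simp
  refine (binet (fun b i => Fq n s (N.m b) i - Fq n s (N.m a) i)
    fun b j => fderiv ℝ (N.ρ b ∘ (ch n s).symm) u (EuclideanSpace.single j 1)).trans ?_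
  congr 2
  ext i l
  simp only [Matrix.of_apply, h1, sub_mul, Finset.sum_sub_distrib, ← Finset.mul_sum, h0, mul_zero,
    sub_zero]

theorem Near.cut (h : Near O N s δ) (hδ : 0 < δ)
    (hb : closedBall (ch n s s) ((n + 4) * δ) ⊆ (ch n s).target) {u : Eu n}
    (hu : u ∈ (ch n s).target) :
    (∑ a, (Bl n s ((n + 2) * δ)).indicator 1 (N.m a) * N.ρ a ((ch n s).symm u)) * jd (GG N s) u =
      (ball (ch n s s) ((n + 4) * δ)).indicator (jd (GG N s)) u := by
  by_cases h1 : u ∈ ball (ch n s s) ((n + 4) * δ)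
  · rw [indicator_of_mem h1]
    rcases le_or_gt ‖u - ch n s s‖ ((n + 1) * δ) with h2 | h2
    · rw [Finset.sum_congr rfl (g := fun a => N.ρ a ((ch n s).symm u)), N.sum, one_mul]
      intro a _
      by_cases h0 : N.ρ a ((ch n s).symm u) = 0
      · rw [h0, mul_zero]
      · obtain ⟨-, h3, h4, -⟩ := h.of_ne h0 (Or.inl ⟨(ch n s).map_target hu, by
          rw [(ch n s).right_inv hu]; exact (mem_ball_iff_norm.1 h1).le⟩)
        rw [(ch n s).right_inv hu, norm_sub_rev] at h4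
        rw [indicator_of_mem (show _ ∈ Bl n s _ from ⟨h3, by
          linarith [norm_sub_le_norm_sub_add_norm_sub (ch n s (N.m a)) u (ch n s s)]⟩),
          Pi.one_apply, one_mul]
    · obtain ⟨i, hi⟩ := exists_coord hδ h2
      have hc : Continuous fun v : Eu n => v i - ch n s s i := by fun_prop
      have h3 : fderiv ℝ (GG N s i) u = 0 := by
        rcases lt_abs.1 hi with h4 | h4
        · rw [Filter.EventuallyEq.fderiv_eq (f := fun _ => (1 : ℝ)), fderiv_fun_const]
          · rfl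
          filter_upwards [isOpen_ball.mem_nhds h1, hc.continuousAt.eventually (lt_mem_nhds h4)]
            with v hv hv' using (h.GG_eq hb i hv).1 hv'
        · rw [Filter.EventuallyEq.fderiv_eq (f := fun _ => (0 : ℝ)), fderiv_fun_const]
          · rfl
          filter_upwards [isOpen_ball.mem_nhds h1, hc.continuousAt.eventually
            (gt_mem_nhds (lt_neg.1 h4))] with v hv hv' using (h.GG_eq hb i hv).2 hv'
      have h4 : jd (GG N s) u = 0 := Matrix.det_eq_zero_of_row_eq_zero i fun j => by simp [h3]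
      rw [h4, mul_zero]
  · rw [indicator_of_notMem h1, Finset.sum_eq_zero, zero_mul]
    intro a _
    by_cases h0 : N.ρ a ((ch n s).symm u) = 0
    · rw [h0, mul_zero]
    · rw [indicator_of_notMem, zero_mul]
      intro h2
      have h4 := (h.of_ne h0 (Or.inr (Bl_mono s (by nlinarith) h2))).2.2.1
      rw [(ch n s).right_inv hu] at h4
      refine h1 (mem_ball_iff_norm.2 ?_)
      linarith [norm_sub_le_norm_sub_add_norm_sub u (ch n s (N.m a)) (ch n s s), h2.2]

/-- the value of the pairing -/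
theorem Near.pair_eq [IsManifold (𝓡 n) ∞ S] (hcv : CVStmt) (hint : IntStmt) (h : Near O N s δ)
    (hδ : 0 < δ) (hb : closedBall (ch n s s) ((n + 4) * δ) ⊆ (ch n s).target) :
    pair O N (co O s δ) = n.factorial * ∫ u in ball (ch n s s) ((n + 4) * δ), jd (GG N s) u := by
  set A : (Fin (n + 1) → N.ι) → ℝ := fun α =>
    (Bl n s ((n + 2) * δ)).indicator 1 (N.m (α 0)) * vol fun j => Fq n s (N.m (α j)) with hA
  set κ : (Fin (n + 1) → N.ι) → C.T → ℝ := fun α x =>
    (ch n s).source.indicator 1 (C.p x) * O.ε x s * A α with hκ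
  have h1 : ∀ (α : Fin (n + 1) → N.ι) t, A α ≠ 0 → N.ρ (α 0) t ≠ 0 →
      t ∈ Bl n s ((n + 4) * δ) ∧ O.ε (N.z (α 0) (sec C t)) s = O.ε (sec C t) s := by
    intro α t h2 h3
    have h4 : N.m (α 0) ∈ Bl n s ((n + 2) * δ) := mem_of_indicator_ne_zero (left_ne_zero_of_mul h2)
    obtain ⟨h5, -, h6, h7⟩ := h.of_ne h3 (Or.inr (Bl_mono s (by nlinarith) h4))
    refine ⟨⟨h5, ?_⟩, h7⟩
    linarith [norm_sub_le_norm_sub_add_norm_sub (ch n s t) (ch n s (N.m (α 0))) (ch n s s), h4.2]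
  have h2 : ∀ α : Fin (n + 1) → N.ι,
      (fun t => co O s δ (fun i => N.z (α i) (sec C t)) * N.ρ (α 0) t) =
        fun t => κ α (sec C t) * N.ρ (α 0) t := fun α => funext fun t => by
    have e : co O s δ (fun i => N.z (α i) (sec C t)) = O.ε (N.z (α 0) (sec C t)) s * A α := by
      simp only [co, N.p_z, hA]; ring
    rw [e, hκ]
    by_cases h3 : N.ρ (α 0) t = 0
    · rw [h3, mul_zero, mul_zero]
    by_cases h4 : A α = 0
    · simp only [h4, mul_zero]
    · simp only [p_sec, indicator_of_mem (h1 α t h4 h3).1.1, (h1 α t h4 h3).2, Pi.one_apply,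
        one_mul]
  have h3 : ∀ (α : Fin (n + 1) → N.ι) s' t, t ∈ (ch n s').source →
      (t ∉ Bl n s ((n + 4) * δ) ∨ t ∉ (ch n (N.m (α 0))).source) →
      O.loc s' (fun t => κ α (sec C t) * N.ρ (α 0) t) (fun i => N.ρ (α i.succ)) (ch n s' t) = 0 := by
    intro α s' t ht h4
    have h5 : κ α (sec C t) * N.ρ (α 0) t = 0 := by
      by_contra h5
      have h6 := right_ne_zero_of_mul h5
      exact h4.elim (fun h7 => h7 (h1 α t (right_ne_zero_of_mul (left_ne_zero_of_mul h5)) h6).1)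
        fun h7 => h7 (N.sub _ (subset_tsupport _ h6))
    rw [Ori.loc, (ch n s').left_inv ht, h5, mul_zero, zero_mul]
  have h4 : ∀ α : Fin (n + 1) → N.ι, IntegrableOn (O.loc s
      (fun t => κ α (sec C t) * N.ρ (α 0) t) fun i => N.ρ (α i.succ)) (ch n s).target := fun α => by
    refine (hint n S C O s (κ α) (Bl n s ((n + 4) * δ)) (fun g x => ?_) (isCompact_Bl hb)
      (fun _ ht => ht.1) fun x hx => ?_).2 _ _ (N.cont _) (fun i => N.sm _)
      fun t ht ht' => h3 α s t ht (Or.inl ht')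
    · simp only [hκ, C.p_smul]
      by_cases hx : C.p x ∈ (ch n s).source
      · rw [O.tw g x s hx]; ring
      · simp [indicator_of_notMem hx]
    · filter_upwards [ev_source hx.1, O.lc x s hx.1] with x' h5 h6
      simp only [hκ, indicator_of_mem h5, indicator_of_mem hx.1, h6, Pi.one_apply]
  have h5 : pair O N (co O s δ) = ∑ α : Fin (n + 1) → N.ι,
      O.int s (fun t => κ α (sec C t) * N.ρ (α 0) t) fun i => N.ρ (α i.succ) :=
    Finset.sum_congr rfl fun α _ => by
      rw [h2]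
      exact hcv n S C O _ s _ _ (fun i => N.sm _)
        (fun t ht ht' => h3 α _ t ht (Or.inl fun h6 => ht' h6.1))
        fun t ht ht' => h3 α _ t ht (Or.inr ht')
  rw [h5]
  simp only [Ori.int]
  rw [← integral_finsetSum _ fun α _ => h4 α, ← inter_eq_right.2 (ball_subset_closedBall.trans hb),
    ← setIntegral_indicator measurableSet_ball, ← integral_const_mul]
  refine setIntegral_congr_fun (ch n s).open_target.measurableSet fun u hu => ?_
  have h6 : ∀ α : Fin (n + 1) → N.ι,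
      O.loc s (fun t => κ α (sec C t) * N.ρ (α 0) t) (fun i => N.ρ (α i.succ)) u =
        A α * N.ρ (α 0) ((ch n s).symm u) * jd (fun i => N.ρ (α i.succ) ∘ (ch n s).symm) u := by
    intro α
    simp only [Ori.loc, hκ, p_sec, indicator_of_mem ((ch n s).map_target hu), Pi.one_apply]
    linear_combination (A α * N.ρ (α 0) ((ch n s).symm u) *
      jd (fun i => N.ρ (α i.succ) ∘ (ch n s).symm) u) * O.sq (sec C ((ch n s).symm u)) s
  simp only [h6]
  rw [← h.cut hδ hb hu, ← (Fin.consEquiv fun _ => N.ι).sum_comp, Fintype.sum_prod_type,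
    Finset.sum_mul, Finset.mul_sum]
  refine Finset.sum_congr rfl fun a _ => ?_
  rw [mul_left_comm, ← sum_jd N s hu a, Finset.mul_sum]
  refine Finset.sum_congr rfl fun β _ => ?_
  simp only [hA, Fin.consEquiv_apply, Fin.cons_zero, Fin.cons_succ]
  ring

end Lc

open Lc in
theorem loc (ho : OriStmt) (hn : NetStmt) (hcv : CVStmt) (hint : IntStmt) (hz : ZeroStmt)
    (hd : DegStmt) : LocStmt := by
  intro n S _ _ _ _ _ C h1
  obtain ⟨O⟩ := ho n S C
  obtain ⟨x⟩ : Nonempty C.T := inferInstance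
  obtain ⟨R, hR, hb⟩ := nhds_basis_closedBall.mem_iff.1
    ((ch n (C.p x)).open_target.mem_nhds (mem_chart_target _ (C.p x)))
  obtain ⟨δ, hδ, rfl⟩ : ∃ δ : ℝ, 0 < δ ∧ R = (n + 4) * δ :=
    ⟨R / (n + 4), by positivity, by field_simp⟩
  refine ⟨⟨O.χ, co O (C.p x) δ, tw_co O _ δ, coc_co O hδ (isCompact_Bl
    ((closedBall_subset_closedBall (by nlinarith)).trans hb)).isClosed, ?_⟩⟩
  rintro ⟨γ, hγ, hW⟩
  choose W hW hW' using hW
  obtain ⟨V, hV, hV'⟩ := exists_nhds O hδ (isCompact_Bl hb).isClosed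
  obtain ⟨N, hN⟩ := hn n S C (fun y => W y ∩ V y) fun y => inter_mem (hW y) (hV y)
  have h2 := hV' N _ (fun _ => inter_subset_right) hN
  have h3 := hz n S C O N (co O (C.p x) δ) γ h1 hγ fun y α hα => by
    obtain ⟨g, x₀, -, h4⟩ := hN y
    have h5 := hW' x₀ _ fun i => (h4 (α i) (hα i)).1
    rw [tw_co O _ δ g, hγ.cob g] at h5
    exact mul_left_cancel₀ (left_ne_zero_of_mul_eq_one (sg_mul_self O.χ g)) h5
  rw [h2.pair_eq hcv hint hδ hb] at h3
  exact hd n _ δ _ _ hδ (by nlinarith)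
    (fun i => (contDiffOn_GG N _ i).mono (ball_subset_closedBall.trans hb))
    (fun i u hu => h2.GG_eq hb i hu)
    ((mul_eq_zero.1 h3).resolve_left (Nat.cast_ne_zero.2 n.factorial_ne_zero))

end Crest.Agent.N222.As

end
end

-- ▼ part N222/As/Main

/-!
# Row 222 (helper11): `C.AsphStmt`, unconditional
-/

set_option autoImplicit false

namespace Crest.Agent.N222.As

/-- the local orientation class -/
theorem locT : LocStmt := loc ori net cv intg (zero st) (deg st)

/-- **a closed aspherical manifold carries a twisted class in top degree** -/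
theorem asph : C.AsphStmt := asph_of_loc locT

end Crest.Agent.N222.As
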